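import Vale.Agent.P141.H628.First
import Vale.Agent.P141.H922.PairSys
import Vale.Agent.P141.H347.LwL2

/-!
# P141, line W, scale-invariant version: the `L²` norm of an atom and of a birth

* `dot_a1_self_le`: `‖a1 c k i‖²_{L²(Q)} ≤ 2 ^ (-k) (wP 1)² / 9`;
* `l2Bd_sysP`: the pair system has `L2Bd` with `K = 2 ^ c0 / δ`;
* `birth_L2_le`: the `L²` average of a birth on its cube is at most `K` times the density of its
  cost.
-/

namespace Vale.Agent.P141.H628

open Finset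
open Vale.Agent.P141.H315 (Grid dot dot_self_nonneg bsum bcost)
open Vale.Agent.P141.PL (Pt el)
open Vale.Agent.P141.PL.H315 (avg avg_nonneg e12 e13 e23 Tri atm cube3 mem_cube3 card_cube3 iv
  card_iv loomis_whitney)
open Vale.Agent.P141.PL.H95 (gr mem_gr card_gr)
open Vale.Agent.P141.PL.H318
open Vale.Agent.P141.H922
open Vale.Agent.P141.H347 (L2Bd)

noncomputable section

open scoped Classical

/-- sums of squares along an injective line -/
theorem line_le {g : ℤ → ℤ} (hg : Function.Injective g) (I J : Finset ℤ) (f : ℤ → ℝ) :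
    ∑ x ∈ I, (if g x ∈ J then f (g x) else 0) ^ 2 ≤ ∑ s ∈ J, f s ^ 2 := by
  have e1 : ∑ x ∈ I, (if g x ∈ J then f (g x) else 0) ^ 2 =
      ∑ x ∈ I.filter (fun x => g x ∈ J), f (g x) ^ 2 := by
    rw [sum_filter]
    exact sum_congr rfl fun x _ => by split_ifs <;> simp
  rw [e1, ← sum_image (s := I.filter (fun x => g x ∈ J)) (g := g) (f := fun s => f s ^ 2)
    (fun x _ y _ h => hg h)]
  refine sum_le_sum_of_subset_of_nonneg ?_ fun _ _ _ => sq_nonneg _
  intro s hs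
  rw [mem_image] at hs
  obtain ⟨x, hx, rfl⟩ := hs
  exact (mem_filter.1 hx).2

theorem inj_lin {a b : ℤ} (ha : a ≠ 0) : Function.Injective fun x : ℤ => a * x + b := by
  intro x y h
  have h' : a * x = a * y := by
    have : a * x + b = a * y + b := h
    linarith
  exact mul_left_cancel₀ ha h'

/-- the lift of a function on a finite set has small line sums -/
theorem lines {c : Pt} (h1 : c.1 ≠ 0) (h2 : c.2.1 ≠ 0) (h3 : c.2.2 ≠ 0) (k : ℕ) (q : Pt)
    (J : Finset ℤ) (f : ℤ → ℝ) {E : ℝ} (hE : ∑ s ∈ J, f s ^ 2 ≤ E) :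
    (∀ y ∈ iv k q.2.1, ∀ z ∈ iv k q.2.2, ∑ x ∈ iv k q.1,
      (if el c (x, y, z) ∈ J then f (el c (x, y, z)) else 0) ^ 2 ≤ E) ∧
    (∀ x ∈ iv k q.1, ∀ z ∈ iv k q.2.2, ∑ y ∈ iv k q.2.1,
      (if el c (x, y, z) ∈ J then f (el c (x, y, z)) else 0) ^ 2 ≤ E) ∧
    (∀ x ∈ iv k q.1, ∀ y ∈ iv k q.2.1, ∑ z ∈ iv k q.2.2,
      (if el c (x, y, z) ∈ J then f (el c (x, y, z)) else 0) ^ 2 ≤ E) := by
  refine ⟨fun y _ z _ => ?_, fun x _ z _ => ?_, fun x _ y _ => ?_⟩
  · refine le_trans (le_of_eq ?_)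
      ((line_le (inj_lin (b := c.2.1 * y + c.2.2 * z) h1) (iv k q.1) J f).trans hE)
    refine sum_congr rfl fun x _ => ?_
    have : el c (x, y, z) = c.1 * x + (c.2.1 * y + c.2.2 * z) := by unfold el; ring
    rw [this]
  · refine le_trans (le_of_eq ?_)
      ((line_le (inj_lin (b := c.1 * x + c.2.2 * z) h2) (iv k q.2.1) J f).trans hE)
    refine sum_congr rfl fun y _ => ?_
    have : el c (x, y, z) = c.2.1 * y + (c.1 * x + c.2.2 * z) := by unfold el; ring
    rw [this]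
  · refine le_trans (le_of_eq ?_)
      ((line_le (inj_lin (b := c.1 * x + c.2.1 * y) h3) (iv k q.2.2) J f).trans hE)
    refine sum_congr rfl fun z _ => ?_
    have : el c (x, y, z) = c.2.2 * z + (c.1 * x + c.2.1 * y) := by unfold el; ring
    rw [this]

/-- **First level for lifts**: a function on `ℤ` whose sum of squares on `J` is at most `2 ^ k L` is
`√L / 3`-uniform on the cubes of scale `k`, pair weight. -/
theorem first_lift {c : Pt} (h1 : c.1 ≠ 0) (h2 : c.2.1 ≠ 0) (h3 : c.2.2 ≠ 0) (k : ℕ)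
    (i : Pt × Tri) (J : Finset ℤ) (f : ℤ → ℝ) {L : ℝ} (hL : 0 ≤ L)
    (hE : ∑ s ∈ J, f s ^ 2 ≤ 2 ^ k * L) :
    3 * |dot J f (a1 c k i)| ≤ wP (√L) (cube3 k i.1) i.2 := by
  obtain ⟨l1, l2, l3⟩ := lines h1 h2 h3 k i.1 J f hE
  have h := first_pw (k := k) (q := i.1)
    (F := fun y => if el c y ∈ J then f (el c y) else 0) i.2 hL l1 l2 l3
  refine le_trans (mul_le_mul_of_nonneg_left ?_ (by norm_num)) h
  rw [dot_a1]
  refine (abs_sum_le_sum_abs _ _).trans (le_of_eq ?_)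
  refine sum_congr rfl fun y _ => ?_
  split_ifs <;> simp

/-- **the `L²` norm of an atom** -/
theorem dot_a1_self_le {c : Pt} (h1 : c.1 ≠ 0) (h2 : c.2.1 ≠ 0) (h3 : c.2.2 ≠ 0) (k : ℕ)
    (i : Pt × Tri) (J : Finset ℤ) :
    dot J (a1 c k i) (a1 c k i) ≤ (2 ^ k)⁻¹ * wP 1 (cube3 k i.1) i.2 ^ 2 / 9 := by
  set E := dot J (a1 c k i) (a1 c k i) with hE
  have hp : (0 : ℝ) < 2 ^ k := by positivity
  have hE0 : 0 ≤ E := dot_self_nonneg _ _
  have hL : 0 ≤ E / 2 ^ k := div_nonneg hE0 hp.le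
  have h := first_lift h1 h2 h3 k i J (a1 c k i) hL (by
    rw [mul_div_cancel₀ _ hp.ne', hE]
    unfold dot
    exact le_of_eq (sum_congr rfl fun s _ => by ring))
  rw [← hE, abs_of_nonneg hE0, wP_eq] at h
  rcases hE0.eq_or_lt with h0 | h0
  · rw [← h0]; positivity
  · have h4 : (3 * E) ^ 2 ≤ (√(E / 2 ^ k) * wP 1 (cube3 k i.1) i.2) ^ 2 :=
      pow_le_pow_left₀ (by positivity) h 2
    rw [mul_pow (√(E / 2 ^ k)), Real.sq_sqrt hL] at h4
    have h5 : E * (9 * E) ≤ E * ((2 ^ k)⁻¹ * wP 1 (cube3 k i.1) i.2 ^ 2) := by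
      calc E * (9 * E) = (3 * E) ^ 2 := by ring
        _ ≤ _ := h4
        _ = _ := by field_simp
    have h6 := le_of_mul_le_mul_left h5 h0
    linarith

/-- `L2Bd` for a system with the atoms `a1 c` and weights at least the pair weight -/
theorem l2Bd_of {c0 : ℕ} {σ : ℤ} {c : Pt} (h1 : c.1 ≠ 0) (h2 : c.2.1 ≠ 0) (h3 : c.2.2 ≠ 0)
    {δ : ℝ} (hδ : 0 < δ) (S : CSys (gr c0 σ) (Pt × Tri)) (ha : ∀ k i, S.a k i = a1 c k i)
    (hW : ∀ k x i, wP δ (cube3 k i.1) i.2 ≤ S.W k ((gr c0 σ).cube k x) i) :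
    L2Bd S (2 ^ c0 / δ) := by
  intro k x i
  rw [ha, card_cell]
  have h4 := dot_a1_self_le h1 h2 h3 k i ((gr c0 σ).cube k x)
  have hw : 0 ≤ wP 1 (cube3 k i.1) i.2 := wP_nonneg zero_le_one _ _
  have h5 : wP 1 (cube3 k i.1) i.2 ≤ S.W k ((gr c0 σ).cube k x) i / δ := by
    rw [le_div_iff₀ hδ, mul_comm, ← wP_eq]
    exact hW k x i
  have h6 : wP 1 (cube3 k i.1) i.2 ^ 2 ≤ (S.W k ((gr c0 σ).cube k x) i / δ) ^ 2 :=
    pow_le_pow_left₀ hw h5 2
  have hc : (1 : ℝ) ≤ 2 ^ c0 := one_le_pow₀ (by norm_num)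
  calc dot ((gr c0 σ).cube k x) (a1 c k i) (a1 c k i) * 2 ^ (k + c0)
      ≤ ((2 ^ k)⁻¹ * wP 1 (cube3 k i.1) i.2 ^ 2 / 9) * 2 ^ (k + c0) :=
        mul_le_mul_of_nonneg_right h4 (by positivity)
    _ = 2 ^ c0 / 9 * wP 1 (cube3 k i.1) i.2 ^ 2 := by rw [pow_add]; field_simp
    _ ≤ 2 ^ c0 / 9 * (S.W k ((gr c0 σ).cube k x) i / δ) ^ 2 :=
        mul_le_mul_of_nonneg_left h6 (by positivity)
    _ ≤ (2 ^ c0) ^ 2 * (S.W k ((gr c0 σ).cube k x) i / δ) ^ 2 :=
        mul_le_mul_of_nonneg_right (by nlinarith) (sq_nonneg _)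
    _ = _ := by ring

theorem l2Bd_sysP (c0 : ℕ) (σ : ℤ) (c : Pt) (hc : csz c ≤ 2 ^ c0) (δ : ℝ) (hδ : 0 < δ)
    (h1 : c.1 ≠ 0) (h2 : c.2.1 ≠ 0) (h3 : c.2.2 ≠ 0) :
    L2Bd (sysP c0 σ c hc δ hδ) (2 ^ c0 / δ) :=
  l2Bd_of h1 h2 h3 hδ _ (fun _ _ => rfl) fun _ _ _ => le_rfl

/-! ### births -/

section births

variable {X ι : Type*} {g : Grid X} {S : CSys g ι}

/-- the triangle inequality in `L²(Q)` -/
theorem sqrt_dot_sum_le (Q : Finset X) (s : Finset ι) (f : ι → X → ℝ) :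
    √(dot Q (fun x => ∑ i ∈ s, f i x) (fun x => ∑ i ∈ s, f i x)) ≤
      ∑ i ∈ s, √(dot Q (f i) (f i)) := by
  induction s using Finset.induction_on with
  | empty => simp [dot]
  | insert a s ha ih =>
    rw [sum_insert ha]
    have h1 : √(dot Q (fun x => ∑ i ∈ insert a s, f i x) (fun x => ∑ i ∈ insert a s, f i x)) ≤
        √(dot Q (f a) (f a)) + √(dot Q (fun x => ∑ i ∈ s, f i x) (fun x => ∑ i ∈ s, f i x)) := by
      set A := dot Q (f a) (f a) with hA
      set B := dot Q (fun x => ∑ i ∈ s, f i x) (fun x => ∑ i ∈ s, f i x) with hB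
      have hA0 : 0 ≤ A := dot_self_nonneg _ _
      have hB0 : 0 ≤ B := dot_self_nonneg _ _
      rw [Real.sqrt_le_left (by positivity)]
      have hcs : (∑ x ∈ Q, f a x * ∑ i ∈ s, f i x) ^ 2 ≤ A * B := by
        refine (sum_mul_sq_le_sq_mul_sq _ _ _).trans (le_of_eq ?_)
        rw [hA, hB]
        unfold dot
        congr 1 <;> exact sum_congr rfl fun x _ => by ring
      have hcs2 : ∑ x ∈ Q, f a x * ∑ i ∈ s, f i x ≤ √A * √B := by
        refine (le_abs_self _).trans ?_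
        rw [← Real.sqrt_mul hA0, ← Real.sqrt_sq_eq_abs]
        exact Real.sqrt_le_sqrt hcs
      have e1 : dot Q (fun x => ∑ i ∈ insert a s, f i x) (fun x => ∑ i ∈ insert a s, f i x) =
          A + 2 * (∑ x ∈ Q, f a x * ∑ i ∈ s, f i x) + B := by
        rw [hA, hB]
        unfold dot
        rw [mul_sum, ← sum_add_distrib, ← sum_add_distrib]
        refine sum_congr rfl fun x _ => ?_
        dsimp only
        rw [sum_insert ha]
        ring
      rw [e1]
      have e2 : (√A + √B) ^ 2 = A + 2 * (√A * √B) + B := by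
        rw [add_sq, Real.sq_sqrt hA0, Real.sq_sqrt hB0]; ring
      rw [e2]
      linarith
    linarith

theorem sqrt_dot_smul (Q : Finset X) (b : ℝ) (f : X → ℝ) :
    √(dot Q (fun x => b * f x) (fun x => b * f x)) = |b| * √(dot Q f f) := by
  have e1 : dot Q (fun x => b * f x) (fun x => b * f x) = b ^ 2 * dot Q f f := by
    unfold dot
    rw [mul_sum]
    exact sum_congr rfl fun x _ => by ring
  rw [e1, Real.sqrt_mul (sq_nonneg _), Real.sqrt_sq_eq_abs]

/-- **the `L²` average of a birth on its cube is at most `K` times the density of its cost** -/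
theorem birth_L2_le {K : ℝ} (hK : 0 ≤ K) (h : L2Bd S K) (k : ℕ) (G : X → ℝ) (x : X) :
    √(dot (g.cube k x) (birth S k G) (birth S k G) / (g.cube k x).card) ≤ K * den S k G x := by
  set Q := g.cube k x with hQ
  have hc : (0 : ℝ) < Q.card := by
    exact_mod_cast Finset.card_pos.mpr ⟨x, g.mem k x⟩
  -- the birth on the cube
  set m := bm S k G Q with hm
  have e1 : dot Q (birth S k G) (birth S k G) =
      dot Q (fun y => ∑ i ∈ m.support, m i * S.a k i y)
        (fun y => ∑ i ∈ m.support, m i * S.a k i y) := by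
    unfold dot
    refine sum_congr rfl fun y hy => ?_
    have e2 : birth S k G y = ∑ i ∈ m.support, m i * S.a k i y := by
      unfold birth
      rw [show g.cube k y = Q from g.eq_of_mem k x y hy]
      unfold cF bsum
      rw [Finsupp.sum_apply']
      rfl
    rw [e2]
  have h2 : ∀ i, √(dot Q (S.a k i) (S.a k i)) ≤ K * S.W k Q i / √Q.card := by
    intro i
    have h3 := h k x i
    rw [le_div_iff₀ (Real.sqrt_pos.2 hc), ← Real.sqrt_mul (dot_self_nonneg _ _)]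
    exact (Real.sqrt_le_sqrt h3).trans (le_of_eq (Real.sqrt_sq (mul_nonneg hK (S.W_nonneg _ _ _))))
  have h4 : √(dot Q (birth S k G) (birth S k G)) ≤ K * cW S k Q m / √Q.card := by
    rw [e1]
    refine (sqrt_dot_sum_le Q m.support fun i y => m i * S.a k i y).trans ?_
    have e3 : K * cW S k Q m / √Q.card = ∑ i ∈ m.support, |m i| * (K * S.W k Q i / √Q.card) := by
      unfold cW bcost Finsupp.sum
      rw [mul_sum, sum_div]
      exact sum_congr rfl fun i _ => by ring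
    rw [e3]
    refine sum_le_sum fun i _ => ?_
    rw [sqrt_dot_smul]
    exact mul_le_mul_of_nonneg_left (h2 i) (abs_nonneg _)
  rw [Real.sqrt_div (dot_self_nonneg _ _), div_le_iff₀ (Real.sqrt_pos.2 hc)]
  refine h4.trans (le_of_eq ?_)
  unfold den
  have h5 : √(Q.card : ℝ) ≠ 0 := (Real.sqrt_pos.2 hc).ne'
  have h6 : √(Q.card : ℝ) * √Q.card = Q.card := Real.mul_self_sqrt hc.le
  rw [← hQ, ← hm]
  field_simp
  rw [Real.sq_sqrt hc.le]

end births

end

end Vale.Agent.P141.H628
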