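import Vale.Agent.P141.H628.FirstG
import Vale.Agent.P141.H628.Birth

/-!
# P141, line W, scale-invariant version: `L²` norms of atoms, geometric weight

* `first_liftG`: a function on `ℤ` with `∑_{s ∈ J} f s ² ≤ 2 ^ k L` is `√L`-uniform on the cubes of
  scale `k` for the geometric weight, constant one;
* `dot_a1_self_leG`: `‖a1 c k i‖²_{L²(J)} ≤ 2 ^ (-k) (wG 1)²`;
* `l2Bd_ofG`: a system with the atoms `a1 c` and weights at least `wG δ` has `L2Bd` with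
  `K = 2 ^ c0 / δ` (then `birth_L2_le` of `Birth` applies).
-/

namespace Vale.Agent.P141.H628

open Finset
open Vale.Agent.P141.H315 (Grid dot dot_self_nonneg)
open Vale.Agent.P141.PL (Pt el)
open Vale.Agent.P141.PL.H315 (avg avg_nonneg e12 e13 e23 Tri atm cube3 mem_cube3 card_cube3 iv
  card_iv)
open Vale.Agent.P141.PL.H95 (gr mem_gr card_gr)
open Vale.Agent.P141.PL.H318
open Vale.Agent.P141.H922
open Vale.Agent.P141.H347 (L2Bd)
open Vale.Agent.P141.H238 (wG wG_nonneg wG_eq)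

noncomputable section

open scoped Classical

/-- **First level for lifts**: a function on `ℤ` whose sum of squares on `J` is at most `2 ^ k L` is
`√L`-uniform on the cubes of scale `k`, geometric weight. -/
theorem first_liftG {c : Pt} (h1 : c.1 ≠ 0) (h2 : c.2.1 ≠ 0) (h3 : c.2.2 ≠ 0) (k : ℕ)
    (i : Pt × Tri) (J : Finset ℤ) (f : ℤ → ℝ) {L : ℝ} (hL : 0 ≤ L)
    (hE : ∑ s ∈ J, f s ^ 2 ≤ 2 ^ k * L) :
    |dot J f (a1 c k i)| ≤ wG (√L) (cube3 k i.1) i.2 := by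
  obtain ⟨l1, l2, l3⟩ := lines h1 h2 h3 k i.1 J f hE
  have h := first_wG (k := k) (q := i.1)
    (F := fun y => if el c y ∈ J then f (el c y) else 0) i.2 hL l1 l2 l3
  refine le_trans ?_ h
  rw [dot_a1]
  refine (abs_sum_le_sum_abs _ _).trans (le_of_eq ?_)
  refine sum_congr rfl fun y _ => ?_
  split_ifs <;> simp

/-- **the `L²` norm of an atom** -/
theorem dot_a1_self_leG {c : Pt} (h1 : c.1 ≠ 0) (h2 : c.2.1 ≠ 0) (h3 : c.2.2 ≠ 0) (k : ℕ)
    (i : Pt × Tri) (J : Finset ℤ) :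
    dot J (a1 c k i) (a1 c k i) ≤ (2 ^ k)⁻¹ * wG 1 (cube3 k i.1) i.2 ^ 2 := by
  set E := dot J (a1 c k i) (a1 c k i) with hE
  have hp : (0 : ℝ) < 2 ^ k := by positivity
  have hE0 : 0 ≤ E := dot_self_nonneg _ _
  have hL : 0 ≤ E / 2 ^ k := div_nonneg hE0 hp.le
  have h := first_liftG h1 h2 h3 k i J (a1 c k i) hL (by
    rw [mul_div_cancel₀ _ hp.ne', hE]
    unfold dot
    exact le_of_eq (sum_congr rfl fun s _ => by ring))
  rw [← hE, abs_of_nonneg hE0, wG_eq] at h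
  rcases hE0.eq_or_lt with h0 | h0
  · rw [← h0]; positivity
  · have h4 : E ^ 2 ≤ (√(E / 2 ^ k) * wG 1 (cube3 k i.1) i.2) ^ 2 :=
      pow_le_pow_left₀ hE0 h 2
    rw [mul_pow (√(E / 2 ^ k)), Real.sq_sqrt hL] at h4
    have h5 : E * E ≤ E * ((2 ^ k)⁻¹ * wG 1 (cube3 k i.1) i.2 ^ 2) := by
      calc E * E = E ^ 2 := by ring
        _ ≤ _ := h4
        _ = _ := by field_simp
    exact le_of_mul_le_mul_left h5 h0

/-- `L2Bd` for a system with the atoms `a1 c` and weights at least the geometric weight -/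
theorem l2Bd_ofG {c0 : ℕ} {σ : ℤ} {c : Pt} (h1 : c.1 ≠ 0) (h2 : c.2.1 ≠ 0) (h3 : c.2.2 ≠ 0)
    {δ : ℝ} (hδ : 0 < δ) (S : CSys (gr c0 σ) (Pt × Tri)) (ha : ∀ k i, S.a k i = a1 c k i)
    (hW : ∀ k x i, wG δ (cube3 k i.1) i.2 ≤ S.W k ((gr c0 σ).cube k x) i) :
    L2Bd S (2 ^ c0 / δ) := by
  intro k x i
  rw [ha, card_cell]
  have h4 := dot_a1_self_leG h1 h2 h3 k i ((gr c0 σ).cube k x)
  have hw : 0 ≤ wG 1 (cube3 k i.1) i.2 := wG_nonneg zero_le_one _ _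
  have h5 : wG 1 (cube3 k i.1) i.2 ≤ S.W k ((gr c0 σ).cube k x) i / δ := by
    rw [le_div_iff₀ hδ, mul_comm, ← wG_eq]
    exact hW k x i
  have h6 : wG 1 (cube3 k i.1) i.2 ^ 2 ≤ (S.W k ((gr c0 σ).cube k x) i / δ) ^ 2 :=
    pow_le_pow_left₀ hw h5 2
  have hc : (1 : ℝ) ≤ 2 ^ c0 := one_le_pow₀ (by norm_num)
  calc dot ((gr c0 σ).cube k x) (a1 c k i) (a1 c k i) * 2 ^ (k + c0)
      ≤ ((2 ^ k)⁻¹ * wG 1 (cube3 k i.1) i.2 ^ 2) * 2 ^ (k + c0) :=
        mul_le_mul_of_nonneg_right h4 (by positivity)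
    _ = 2 ^ c0 * wG 1 (cube3 k i.1) i.2 ^ 2 := by rw [pow_add]; field_simp
    _ ≤ 2 ^ c0 * (S.W k ((gr c0 σ).cube k x) i / δ) ^ 2 :=
        mul_le_mul_of_nonneg_left h6 (by positivity)
    _ ≤ (2 ^ c0) ^ 2 * (S.W k ((gr c0 σ).cube k x) i / δ) ^ 2 :=
        mul_le_mul_of_nonneg_right (by nlinarith) (sq_nonneg _)
    _ = _ := by ring

end

end Vale.Agent.P141.H628
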