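import Mathlib

/-!
# P141, line W: the three-sum lemma

If `2 ^ m ν ≤ S`, `2 ^ n ν ≤ S'`, `2 ^ (m + n) ν ≤ V` for every class `(m, n)` then, for
`a, b, c > 0`, `∑ (2 ^ m ν) ^ a (2 ^ n ν) ^ b (2 ^ (m + n) ν) ^ c ≤ C S ^ a S' ^ b V ^ c`: the sum is
geometric around one class.
-/

namespace Vale.Agent.P141.H628

open Finset

noncomputable section

/-- geometric sums over a finite set of integers -/
theorem sum_geo_int {ρ : ℝ} (h0 : 0 ≤ ρ) (h1 : ρ < 1) (t : Finset ℤ) (n0 : ℤ) :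
    ∑ n ∈ t, ρ ^ (n - n0).natAbs ≤ 2 * (1 - ρ)⁻¹ := by
  have hs : Summable fun k : ℕ => ρ ^ k := summable_geometric_of_lt_one h0 h1
  have key : ∀ s : Finset ℤ, Set.InjOn (fun n : ℤ => (n - n0).natAbs) s →
      ∑ n ∈ s, ρ ^ (n - n0).natAbs ≤ (1 - ρ)⁻¹ := by
    intro s hs'
    rw [← sum_image (s := s) (g := fun n : ℤ => (n - n0).natAbs) (f := fun k => ρ ^ k) hs',
      ← tsum_geometric_of_lt_one h0 h1]
    exact hs.sum_le_tsum _ fun _ _ => pow_nonneg h0 _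
  rw [← sum_filter_add_sum_filter_not t (fun n => n0 ≤ n)]
  have k1 := key (t.filter fun n => n0 ≤ n) (by
    intro x hx y hy h
    simp only [coe_filter, Set.mem_ofPred_eq] at hx hy
    have h' : (x - n0).natAbs = (y - n0).natAbs := h
    omega)
  have k2 := key (t.filter fun n => ¬ n0 ≤ n) (by
    intro x hx y hy h
    simp only [coe_filter, Set.mem_ofPred_eq] at hx hy
    have h' : (x - n0).natAbs = (y - n0).natAbs := h
    omega)
  linarith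

/-- the constant of the one-dimensional sums -/
def gC (κ : ℝ) : ℝ := 2 ^ κ * (2 * (1 - 2 ^ (-κ))⁻¹)

theorem rho_lt_one {κ : ℝ} (hκ : 0 < κ) : (2 : ℝ) ^ (-κ) < 1 :=
  Real.rpow_lt_one_of_one_lt_of_neg (by norm_num) (by linarith)

theorem gC_pos {κ : ℝ} (hκ : 0 < κ) : 0 < gC κ := by
  have := rho_lt_one hκ
  unfold gC
  have h1 : 0 < (1 - (2 : ℝ) ^ (-κ))⁻¹ := inv_pos.2 (by linarith)
  positivity

/-- geometric sums around a real number -/
theorem sum_geo_real {κ : ℝ} (hκ : 0 < κ) (t : Finset ℤ) (y : ℝ) :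
    ∑ n ∈ t, (2 : ℝ) ^ (-(κ * |(n : ℝ) - y|)) ≤ gC κ := by
  have h0 : (0 : ℝ) ≤ 2 ^ (-κ) := by positivity
  have h := sum_geo_int h0 (rho_lt_one hκ) t ⌊y⌋
  unfold gC
  refine le_trans ?_ (mul_le_mul_of_nonneg_left h (by positivity))
  rw [mul_sum]
  refine sum_le_sum fun n _ => ?_
  rw [← Real.rpow_natCast, ← Real.rpow_mul (by norm_num), ← Real.rpow_add (by norm_num)]
  refine Real.rpow_le_rpow_of_exponent_le (by norm_num) ?_
  have e1 : (((n - ⌊y⌋).natAbs : ℕ) : ℝ) = |(n : ℝ) - ⌊y⌋| := by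
    rw [Nat.cast_natAbs]; push_cast; rfl
  rw [e1]
  have h2 := Int.floor_le y
  have h3 := Int.lt_floor_add_one y
  have h4 : |(n : ℝ) - ⌊y⌋| ≤ |(n : ℝ) - y| + 1 := by
    have h5 : |y - ⌊y⌋| ≤ 1 := by rw [abs_le]; constructor <;> linarith
    calc |(n : ℝ) - ⌊y⌋| = |((n : ℝ) - y) + (y - ⌊y⌋)| := by ring_nf
      _ ≤ _ := (abs_add_le _ _).trans (by linarith)
  nlinarith

/-- the pointwise decay -/
theorem dec_one {κ X Z r : ℝ} (hκ : 0 < κ) (hX : 0 ≤ X) (hX1 : X ≤ 1) (hZ1 : Z ≤ 1)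
    (h : Z = X * 2 ^ r) : (X * Z) ^ κ ≤ 2 ^ (-(κ * |r|)) := by
  have h2 : (0 : ℝ) < 2 ^ r := by positivity
  have hZ : 0 ≤ Z := by rw [h]; positivity
  have h3 : X * Z ≤ 2 ^ (-|r|) := by
    rcases le_total 0 r with hr | hr
    · rw [abs_of_nonneg hr]
      have : X ≤ 2 ^ (-r) := by
        rw [Real.rpow_neg (by norm_num), ← one_div, le_div_iff₀ h2, ← h]; exact hZ1
      calc X * Z ≤ 2 ^ (-r) * 1 := mul_le_mul this hZ1 hZ (by positivity)
        _ = _ := mul_one _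
    · rw [abs_of_nonpos hr, neg_neg]
      have : Z ≤ 2 ^ r := by
        rw [h]
        calc X * 2 ^ r ≤ 1 * 2 ^ r := mul_le_mul_of_nonneg_right hX1 h2.le
          _ = _ := one_mul _
      calc X * Z ≤ 1 * 2 ^ r := mul_le_mul hX1 this hZ zero_le_one
        _ = _ := one_mul _
  calc (X * Z) ^ κ ≤ (2 ^ (-|r|)) ^ κ := Real.rpow_le_rpow (mul_nonneg hX hZ) h3 hκ.le
    _ = _ := by rw [← Real.rpow_mul (by norm_num)]; congr 1; ring

/-- **The three-sum lemma.** -/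
theorem three_sum {a b c κ : ℝ} (hκ : 0 < κ) (ha : κ ≤ a) (hb : κ ≤ b) (hc : 2 * κ ≤ c)
    (s : Finset (ℤ × ℤ)) (ν : ℤ × ℤ → ℝ) {S S' V : ℝ} (hν : ∀ p ∈ s, 0 ≤ ν p) (hS0 : 0 ≤ S)
    (hS0' : 0 ≤ S') (hV0 : 0 ≤ V)
    (hS : ∀ p ∈ s, (2 : ℝ) ^ p.1 * ν p ≤ S) (hS' : ∀ p ∈ s, (2 : ℝ) ^ p.2 * ν p ≤ S')
    (hV : ∀ p ∈ s, (2 : ℝ) ^ (p.1 + p.2) * ν p ≤ V) :
    ∑ p ∈ s, ((2 : ℝ) ^ p.1 * ν p) ^ a * ((2 : ℝ) ^ p.2 * ν p) ^ b *
      ((2 : ℝ) ^ (p.1 + p.2) * ν p) ^ c ≤ gC κ ^ 2 * (S ^ a * S' ^ b * V ^ c) := by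
  have ha0 : 0 < a := by linarith
  have hb0 : 0 < b := by linarith
  have hc0 : 0 < c := by linarith
  have hg := gC_pos hκ
  have hz : ∀ p : ℤ × ℤ, (0 : ℝ) < 2 ^ p.1 ∧ (0 : ℝ) < 2 ^ p.2 ∧ (0 : ℝ) < 2 ^ (p.1 + p.2) :=
    fun p => ⟨by positivity, by positivity, by positivity⟩
  rcases hS0.eq_or_lt with h | h1
  · have : ∀ p ∈ s, ((2 : ℝ) ^ p.1 * ν p) ^ a * ((2 : ℝ) ^ p.2 * ν p) ^ b *
        ((2 : ℝ) ^ (p.1 + p.2) * ν p) ^ c = 0 := fun p hp => by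
      have e : (2 : ℝ) ^ p.1 * ν p = 0 :=
        le_antisymm (h ▸ hS p hp) (mul_nonneg (hz p).1.le (hν p hp))
      rw [e, Real.zero_rpow ha0.ne']; ring
    rw [sum_congr rfl this, sum_const_zero]
    positivity
  rcases hS0'.eq_or_lt with h | h2
  · have : ∀ p ∈ s, ((2 : ℝ) ^ p.1 * ν p) ^ a * ((2 : ℝ) ^ p.2 * ν p) ^ b *
        ((2 : ℝ) ^ (p.1 + p.2) * ν p) ^ c = 0 := fun p hp => by
      have e : (2 : ℝ) ^ p.2 * ν p = 0 :=
        le_antisymm (h ▸ hS' p hp) (mul_nonneg (hz p).2.1.le (hν p hp))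
      rw [e, Real.zero_rpow hb0.ne']; ring
    rw [sum_congr rfl this, sum_const_zero]
    positivity
  rcases hV0.eq_or_lt with h | h3
  · have : ∀ p ∈ s, ((2 : ℝ) ^ p.1 * ν p) ^ a * ((2 : ℝ) ^ p.2 * ν p) ^ b *
        ((2 : ℝ) ^ (p.1 + p.2) * ν p) ^ c = 0 := fun p hp => by
      have e : (2 : ℝ) ^ (p.1 + p.2) * ν p = 0 :=
        le_antisymm (h ▸ hV p hp) (mul_nonneg (hz p).2.2.le (hν p hp))
      rw [e, Real.zero_rpow hc0.ne']; ring
    rw [sum_congr rfl this, sum_const_zero]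
    positivity
  -- the centre of the classes
  set n0 : ℝ := Real.logb 2 (V / S) with hn0
  set m0 : ℝ := Real.logb 2 (V / S') with hm0
  have en0 : (2 : ℝ) ^ n0 = V / S := Real.rpow_logb (by norm_num) (by norm_num) (by positivity)
  have em0 : (2 : ℝ) ^ m0 = V / S' := Real.rpow_logb (by norm_num) (by norm_num) (by positivity)
  have term : ∀ p ∈ s, ((2 : ℝ) ^ p.1 * ν p) ^ a * ((2 : ℝ) ^ p.2 * ν p) ^ b *
      ((2 : ℝ) ^ (p.1 + p.2) * ν p) ^ c ≤ (S ^ a * S' ^ b * V ^ c) *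
        ((2 : ℝ) ^ (-(κ * |(p.1 : ℝ) - m0|)) * (2 : ℝ) ^ (-(κ * |(p.2 : ℝ) - n0|))) := by
    intro p hp
    obtain ⟨z1, z2, z3⟩ := hz p
    have hn := hν p hp
    set x := (2 : ℝ) ^ p.1 * ν p with hx
    set y := (2 : ℝ) ^ p.2 * ν p with hy
    set z := (2 : ℝ) ^ (p.1 + p.2) * ν p with hzz
    have x0 : 0 ≤ x := mul_nonneg z1.le hn
    have y0 : 0 ≤ y := mul_nonneg z2.le hn
    have z0 : 0 ≤ z := mul_nonneg z3.le hn
    set X := x / S with hX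
    set Y := y / S' with hY
    set Z := z / V with hZ
    have X0 : 0 ≤ X := by positivity
    have Y0 : 0 ≤ Y := by positivity
    have Z0 : 0 ≤ Z := by positivity
    have X1 : X ≤ 1 := (div_le_one h1).2 (hS p hp)
    have Y1 : Y ≤ 1 := (div_le_one h2).2 (hS' p hp)
    have Z1 : Z ≤ 1 := (div_le_one h3).2 (hV p hp)
    have ex : x = S * X := by rw [hX]; field_simp
    have ey : y = S' * Y := by rw [hY]; field_simp
    have ez : z = V * Z := by rw [hZ]; field_simp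
    have r1 : Z = X * 2 ^ ((p.2 : ℝ) - n0) := by
      rw [Real.rpow_sub (by norm_num), en0, Real.rpow_intCast, hZ, hX, hzz, hx,
        zpow_add₀ (by norm_num)]
      field_simp
    have r2 : Z = Y * 2 ^ ((p.1 : ℝ) - m0) := by
      rw [Real.rpow_sub (by norm_num), em0, Real.rpow_intCast, hZ, hY, hzz, hy,
        zpow_add₀ (by norm_num)]
      field_simp
    have d1 := dec_one hκ X0 X1 Z1 r1
    have d2 := dec_one hκ Y0 Y1 Z1 r2
    have f1 : X ^ a ≤ X ^ κ := Real.rpow_le_rpow_of_exponent_ge_of_imp X0 X1 ha fun _ h => by linarith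
    have f2 : Y ^ b ≤ Y ^ κ := Real.rpow_le_rpow_of_exponent_ge_of_imp Y0 Y1 hb fun _ h => by linarith
    have f3 : Z ^ c ≤ Z ^ (2 * κ) :=
      Real.rpow_le_rpow_of_exponent_ge_of_imp Z0 Z1 hc fun _ h => by linarith
    have f4 : Z ^ (2 * κ) = Z ^ κ * Z ^ κ := by
      rw [← Real.rpow_add_of_nonneg Z0 hκ.le hκ.le]; congr 1; ring
    rw [ex, ey, ez, Real.mul_rpow h1.le X0, Real.mul_rpow h2.le Y0, Real.mul_rpow h3.le Z0]
    calc S ^ a * X ^ a * (S' ^ b * Y ^ b) * (V ^ c * Z ^ c)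
        = (S ^ a * S' ^ b * V ^ c) * (X ^ a * Y ^ b * Z ^ c) := by ring
      _ ≤ (S ^ a * S' ^ b * V ^ c) * ((Y * Z) ^ κ * (X * Z) ^ κ) := by
          refine mul_le_mul_of_nonneg_left ?_ (by positivity)
          calc X ^ a * Y ^ b * Z ^ c ≤ X ^ κ * Y ^ κ * (Z ^ κ * Z ^ κ) := by
                rw [← f4]
                exact mul_le_mul (mul_le_mul f1 f2 (by positivity) (by positivity)) f3
                  (by positivity) (by positivity)
            _ = _ := by rw [Real.mul_rpow Y0 Z0, Real.mul_rpow X0 Z0]; ring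
      _ ≤ _ := by
          refine mul_le_mul_of_nonneg_left ?_ (by positivity)
          exact mul_le_mul d2 d1 (by positivity) (by positivity)
  refine (sum_le_sum term).trans ?_
  rw [← mul_sum]
  have hsub : s ⊆ (s.image Prod.fst) ×ˢ (s.image Prod.snd) := by
    intro p hp
    rw [mem_product]
    exact ⟨mem_image_of_mem _ hp, mem_image_of_mem _ hp⟩
  have hsum : ∑ p ∈ s, (2 : ℝ) ^ (-(κ * |(p.1 : ℝ) - m0|)) * (2 : ℝ) ^ (-(κ * |(p.2 : ℝ) - n0|)) ≤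
      gC κ ^ 2 := by
    refine (sum_le_sum_of_subset_of_nonneg hsub fun _ _ _ => by positivity).trans ?_
    rw [sum_product]
    simp_rw [← mul_sum]
    rw [← sum_mul, sq]
    exact mul_le_mul (sum_geo_real hκ _ _) (sum_geo_real hκ _ _)
      (sum_nonneg fun _ _ => by positivity) hg.le
  calc _ ≤ (S ^ a * S' ^ b * V ^ c) * gC κ ^ 2 := mul_le_mul_of_nonneg_left hsum (by positivity)
    _ = _ := mul_comm _ _

end

end Vale.Agent.P141.H628
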