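import Vale.Agent.P141.H628.ClsV

/-!
# P141, line W: the class sum of the geometric weight on a box

`rw1 B a x = E_{y ∈ B} a (x, y)²`, `cl1 A a y = E_{x ∈ A} a (x, y)²`: the two degrees of an edge;
`tri3 A B C u c1 c2 c3 = tau c1 tau c2 tau c3` and `∑ tri3 ≤ C pG (A × B × C) u`.
-/

namespace Vale.Agent.P141.H628

open Finset
open Vale.Agent.P141.PL.H315 (avg avg_nonneg e12 e13 e23 Tri atm)
open Vale.Agent.P141.H922 (n2 n2_nonneg n2_sq)
open Vale.Agent.P141.H238 (v2 v2_nonneg pG pG_nonneg)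

noncomputable section

open scoped Classical

/-- the degree of an edge at its first vertex -/
def rw1 (B : Finset ℤ) (a : ℤ × ℤ → ℝ) (x : ℤ) : ℝ := avg B fun y => a (x, y) ^ 2

/-- the degree of an edge at its second vertex -/
def cl1 (A : Finset ℤ) (a : ℤ × ℤ → ℝ) (y : ℤ) : ℝ := avg A fun x => a (x, y) ^ 2

theorem rw1_nonneg (B : Finset ℤ) (a : ℤ × ℤ → ℝ) (x : ℤ) : 0 ≤ rw1 B a x :=
  avg_nonneg fun _ _ => sq_nonneg _

theorem cl1_nonneg (A : Finset ℤ) (a : ℤ × ℤ → ℝ) (y : ℤ) : 0 ≤ cl1 A a y :=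
  avg_nonneg fun _ _ => sq_nonneg _

theorem avg_prod {X Y : Type*} (A : Finset X) (B : Finset Y) (f : X × Y → ℝ) :
    avg (A ×ˢ B) f = avg A fun x => avg B fun y => f (x, y) := by
  unfold avg
  rw [sum_product, card_product]
  push_cast
  rw [mul_inv, mul_assoc, ← mul_sum]

theorem avg_const' {X : Type*} {A : Finset X} (hA : A.Nonempty) (r : ℝ) :
    (avg A fun _ => r) = r := by
  unfold avg
  rw [sum_const, nsmul_eq_mul, ← mul_assoc, inv_mul_cancel₀, one_mul]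
  exact_mod_cast hA.card_pos.ne'

theorem avg_comm' {X Y : Type*} (A : Finset X) (B : Finset Y) (f : X → Y → ℝ) :
    (avg A fun x => avg B fun y => f x y) = avg B fun y => avg A fun x => f x y := by
  unfold avg
  simp_rw [mul_sum]
  rw [sum_comm]
  exact sum_congr rfl fun y _ => sum_congr rfl fun x _ => by ring

theorem avg_mul_left' {X : Type*} (A : Finset X) (r : ℝ) (f : X → ℝ) :
    (avg A fun x => r * f x) = r * avg A f := by
  unfold avg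
  rw [← mul_sum]; ring

theorem avg_mul_right' {X : Type*} (A : Finset X) (r : ℝ) (f : X → ℝ) :
    (avg A fun x => f x * r) = avg A f * r := by
  unfold avg
  rw [← sum_mul]; ring

section

variable {A B C : Finset ℤ}

theorem sq12 (hC : C.Nonempty) (a : ℤ × ℤ → ℝ) :
    (avg (A ×ˢ B ×ˢ C) fun w => e12 a w ^ 2) = avg A (rw1 B a) := by
  rw [avg_prod]
  congr 1; funext x
  rw [avg_prod]
  unfold rw1 e12
  congr 1; funext y
  exact avg_const' hC (a (x, y) ^ 2)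

theorem sq13 (hB : B.Nonempty) (b : ℤ × ℤ → ℝ) :
    (avg (A ×ˢ B ×ˢ C) fun w => e13 b w ^ 2) = avg A (rw1 C b) := by
  rw [avg_prod]
  congr 1; funext x
  rw [avg_prod]
  exact avg_const' hB (rw1 C b x)

theorem sq23 (hA : A.Nonempty) (c : ℤ × ℤ → ℝ) :
    (avg (A ×ˢ B ×ˢ C) fun w => e23 c w ^ 2) = avg B (rw1 C c) := by
  rw [avg_prod]
  have : (fun x : ℤ => avg (B ×ˢ C) fun y => e23 c (x, y) ^ 2) = fun _ => avg B (rw1 C c) := by
    funext x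
    rw [avg_prod]
    rfl
  rw [this]
  exact avg_const' hA _

theorem row_col (a : ℤ × ℤ → ℝ) : avg A (rw1 B a) = avg B (cl1 A a) :=
  avg_comm' A B fun x y => a (x, y) ^ 2

theorem v2_12_13 (a b : ℤ × ℤ → ℝ) :
    v2 (A ×ˢ B ×ˢ C) (e12 a) (e13 b) = avg A fun x => rw1 B a x * rw1 C b x := by
  unfold v2
  rw [avg_prod]
  congr 1; funext x
  rw [avg_prod]
  rw [show rw1 B a x * rw1 C b x = avg B fun y => a (x, y) ^ 2 * rw1 C b x from
    (avg_mul_right' B (rw1 C b x) fun y => a (x, y) ^ 2).symm]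
  congr 1; funext y
  exact avg_mul_left' C (a (x, y) ^ 2) fun z => b (x, z) ^ 2

theorem v2_12_23 (a c : ℤ × ℤ → ℝ) :
    v2 (A ×ˢ B ×ˢ C) (e12 a) (e23 c) = avg B fun y => cl1 A a y * rw1 C c y := by
  unfold v2
  rw [avg_prod]
  have h1 : (fun x : ℤ => avg (B ×ˢ C) fun w => e12 a (x, w) ^ 2 * e23 c (x, w) ^ 2) =
      fun x => avg B fun y => a (x, y) ^ 2 * rw1 C c y := by
    funext x
    rw [avg_prod]
    congr 1; funext y
    exact avg_mul_left' C (a (x, y) ^ 2) fun z => c (y, z) ^ 2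
  rw [h1, avg_comm']
  congr 1; funext y
  exact avg_mul_right' A (rw1 C c y) fun x => a (x, y) ^ 2

theorem v2_13_23 (b c : ℤ × ℤ → ℝ) :
    v2 (A ×ˢ B ×ˢ C) (e13 b) (e23 c) = avg C fun z => cl1 A b z * cl1 B c z := by
  unfold v2
  rw [avg_prod]
  have h1 : (fun x : ℤ => avg (B ×ˢ C) fun w => e13 b (x, w) ^ 2 * e23 c (x, w) ^ 2) =
      fun x => avg C fun z => b (x, z) ^ 2 * cl1 B c z := by
    funext x
    rw [avg_prod, avg_comm']
    congr 1; funext z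
    exact avg_mul_left' B (b (x, z) ^ 2) fun y => c (y, z) ^ 2
  rw [h1, avg_comm']
  congr 1; funext z
  exact avg_mul_right' A (cl1 B c z) fun x => b (x, z) ^ 2

/-- **the density of the geometric weight on a box** -/
theorem pG_box (hA : A.Nonempty) (hB : B.Nonempty) (hC : C.Nonempty) (u : Tri) :
    pG (A ×ˢ B ×ˢ C) u =
      (avg A (rw1 B u.1) ^ (1 / 12 : ℝ) * avg A (rw1 C u.2.1) ^ (1 / 12 : ℝ) *
        (avg A fun x => rw1 B u.1 x * rw1 C u.2.1 x) ^ (1 / 6 : ℝ)) *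
      (avg B (cl1 A u.1) ^ (1 / 12 : ℝ) * avg B (rw1 C u.2.2) ^ (1 / 12 : ℝ) *
        (avg B fun y => cl1 A u.1 y * rw1 C u.2.2 y) ^ (1 / 6 : ℝ)) *
      (avg C (cl1 A u.2.1) ^ (1 / 12 : ℝ) * avg C (cl1 B u.2.2) ^ (1 / 12 : ℝ) *
        (avg C fun z => cl1 A u.2.1 z * cl1 B u.2.2 z) ^ (1 / 6 : ℝ)) := by
  have h12 := avg_nonneg (Q := A) (f := rw1 B u.1) fun x _ => rw1_nonneg B u.1 x
  have h13 := avg_nonneg (Q := A) (f := rw1 C u.2.1) fun x _ => rw1_nonneg C u.2.1 x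
  have h23 := avg_nonneg (Q := B) (f := rw1 C u.2.2) fun x _ => rw1_nonneg C u.2.2 x
  have k1 := v2_nonneg (A ×ˢ B ×ˢ C) (e12 u.1) (e13 u.2.1)
  have k2 := v2_nonneg (A ×ˢ B ×ˢ C) (e12 u.1) (e23 u.2.2)
  have k3 := v2_nonneg (A ×ˢ B ×ˢ C) (e13 u.2.1) (e23 u.2.2)
  rw [← row_col (A := A) (B := B) u.1, ← row_col (A := A) (B := C) u.2.1,
    ← row_col (A := B) (B := C) u.2.2, ← v2_12_13, ← v2_12_23, ← v2_13_23]
  unfold pG n2
  rw [sq12 hC, sq13 hB, sq23 hA, Real.mul_rpow (mul_nonneg (Real.sqrt_nonneg _)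
    (Real.sqrt_nonneg _)) (Real.sqrt_nonneg _), Real.mul_rpow (Real.sqrt_nonneg _)
    (Real.sqrt_nonneg _), Real.mul_rpow (mul_nonneg k1 k2) k3, Real.mul_rpow k1 k2]
  have e1 : ∀ r : ℝ, 0 ≤ r → (√r) ^ (1 / 3 : ℝ) = r ^ (1 / 12 : ℝ) * r ^ (1 / 12 : ℝ) := by
    intro r hr
    rw [Real.sqrt_eq_rpow, ← Real.rpow_mul hr, ← Real.rpow_add_of_nonneg hr (by norm_num)
      (by norm_num)]
    norm_num
  rw [e1 _ h12, e1 _ h13, e1 _ h23]
  ring

/-- the product of the values of the classes at the three vertices -/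
def tri3 (A B C : Finset ℤ) (u : Tri) (c1 c2 c3 : ℤ × ℤ) : ℝ :=
  tau A (rw1 B u.1) (rw1 C u.2.1) c1 * tau B (cl1 A u.1) (rw1 C u.2.2) c2 *
    tau C (cl1 A u.2.1) (cl1 B u.2.2) c3

theorem tri3_nonneg (u : Tri) (c1 c2 c3 : ℤ × ℤ) : 0 ≤ tri3 A B C u c1 c2 c3 :=
  mul_nonneg (mul_nonneg (tau_nonneg _ _ _ _) (tau_nonneg _ _ _ _)) (tau_nonneg _ _ _ _)

/-- the classes at the three vertices of a box -/
def cls1 (A B C : Finset ℤ) (u : Tri) : Finset (ℤ × ℤ) := cls A (rw1 B u.1) (rw1 C u.2.1)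

def cls2 (A B C : Finset ℤ) (u : Tri) : Finset (ℤ × ℤ) := cls B (cl1 A u.1) (rw1 C u.2.2)

def cls3 (A B C : Finset ℤ) (u : Tri) : Finset (ℤ × ℤ) := cls C (cl1 A u.2.1) (cl1 B u.2.2)

/-- **The class sum on a box.** -/
theorem sum_tri3_le (hA : A.Nonempty) (hB : B.Nonempty) (hC : C.Nonempty) (u : Tri) :
    ∑ c1 ∈ cls1 A B C u, ∑ c2 ∈ cls2 A B C u, ∑ c3 ∈ cls3 A B C u, tri3 A B C u c1 c2 c3 ≤
      (gC (1 / 12) ^ 2) ^ 3 * pG (A ×ˢ B ×ˢ C) u := by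
  have h1 := sum_tau_le A (fun x _ => rw1_nonneg B u.1 x) (fun x _ => rw1_nonneg C u.2.1 x)
  have h2 := sum_tau_le B (fun x _ => cl1_nonneg A u.1 x) (fun x _ => rw1_nonneg C u.2.2 x)
  have h3 := sum_tau_le C (fun x _ => cl1_nonneg A u.2.1 x) (fun x _ => cl1_nonneg B u.2.2 x)
  have e : ∑ c1 ∈ cls1 A B C u, ∑ c2 ∈ cls2 A B C u, ∑ c3 ∈ cls3 A B C u,
      tri3 A B C u c1 c2 c3 =
      (∑ c ∈ cls A (rw1 B u.1) (rw1 C u.2.1), tau A (rw1 B u.1) (rw1 C u.2.1) c) *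
      (∑ c ∈ cls B (cl1 A u.1) (rw1 C u.2.2), tau B (cl1 A u.1) (rw1 C u.2.2) c) *
      (∑ c ∈ cls C (cl1 A u.2.1) (cl1 B u.2.2), tau C (cl1 A u.2.1) (cl1 B u.2.2) c) := by
    unfold tri3 cls1 cls2 cls3
    simp_rw [← mul_sum, ← sum_mul, ← mul_sum, ← sum_mul]
  rw [e, pG_box hA hB hC]
  have g0 : 0 ≤ gC (1 / 12) := (gC_pos (by norm_num)).le
  have t0 : ∀ (X : Finset ℤ) (p q : ℤ → ℝ), 0 ≤ ∑ c ∈ cls X p q, tau X p q c :=
    fun X p q => sum_nonneg fun c _ => tau_nonneg _ _ _ _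
  refine (mul_le_mul (mul_le_mul h1 h2 (t0 _ _ _) ((t0 _ _ _).trans h1)) h3 (t0 _ _ _)
    (mul_nonneg ((t0 _ _ _).trans h1) ((t0 _ _ _).trans h2))).trans (le_of_eq ?_)
  ring

end

end

end Vale.Agent.P141.H628
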