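import Vale.Agent.P141.H628.First
import Vale.Agent.P141.H238.GDef

/-!
# P141, line W, scale-invariant version: the first level in the geometric weight

For `F` with line averages of `F ^ 2` at most `L` in the three directions,
`∑ |F| |a12 a13 a23| ≤ |Q| √L |a_jk|₂ (E a_ij² a_ik²)^(1/2)` for every vertex `i`, and hence
`∑ |F| |a12 a13 a23| ≤ wG √L Q u`, constant one.
-/

namespace Vale.Agent.P141.H628

open Finset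
open Vale.Agent.P141.PL.H315 (avg avg_nonneg e12 e13 e23 Tri atm cube3 mem_cube3 card_cube3 iv
  card_iv)
open Vale.Agent.P141.H922
open Vale.Agent.P141.H238 (v2 v2_nonneg v2_comm pG pG_nonneg wG wG_nonneg wG_eq wG_mul)

noncomputable section

section

variable {k : ℕ} {q : ℤ × ℤ × ℤ} {F : ℤ × ℤ × ℤ → ℝ} {L : ℝ}

theorem sumF23 (c : ℤ × ℤ → ℝ)
    (h1 : ∀ y ∈ iv k q.2.1, ∀ z ∈ iv k q.2.2, ∑ x ∈ iv k q.1, F (x, y, z) ^ 2 ≤ 2 ^ k * L) :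
    ∑ y ∈ cube3 k q, (F y * e23 c y) ^ 2 ≤ 8 ^ k * (L * n2 (cube3 k q) (e23 c) ^ 2) := by
  rw [n2_sq]
  have h := avg23 k q (fun t => t ^ 2) c
  calc ∑ y ∈ cube3 k q, (F y * e23 c y) ^ 2
      = ∑ y ∈ iv k q.2.1, ∑ z ∈ iv k q.2.2, (∑ x ∈ iv k q.1, F (x, y, z) ^ 2) * c (y, z) ^ 2 := by
        rw [sum_cube3, sum_comm]
        refine sum_congr rfl fun y _ => ?_
        rw [sum_comm]
        refine sum_congr rfl fun z _ => ?_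
        rw [sum_mul]
        exact sum_congr rfl fun x _ => by unfold e23; ring
    _ ≤ ∑ y ∈ iv k q.2.1, ∑ z ∈ iv k q.2.2, (2 ^ k * L) * c (y, z) ^ 2 :=
        sum_le_sum fun y hy => sum_le_sum fun z hz =>
          mul_le_mul_of_nonneg_right (h1 y hy z hz) (sq_nonneg _)
    _ = (2 ^ k * L) * ∑ y ∈ iv k q.2.1, ∑ z ∈ iv k q.2.2, c (y, z) ^ 2 := by
        simp_rw [← mul_sum]
    _ = _ := by rw [h, eight]; ring

theorem sumF13 (b : ℤ × ℤ → ℝ)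
    (h2 : ∀ x ∈ iv k q.1, ∀ z ∈ iv k q.2.2, ∑ y ∈ iv k q.2.1, F (x, y, z) ^ 2 ≤ 2 ^ k * L) :
    ∑ y ∈ cube3 k q, (F y * e13 b y) ^ 2 ≤ 8 ^ k * (L * n2 (cube3 k q) (e13 b) ^ 2) := by
  rw [n2_sq]
  have h := avg13 k q (fun t => t ^ 2) b
  calc ∑ y ∈ cube3 k q, (F y * e13 b y) ^ 2
      = ∑ x ∈ iv k q.1, ∑ z ∈ iv k q.2.2, (∑ y ∈ iv k q.2.1, F (x, y, z) ^ 2) * b (x, z) ^ 2 := by
        rw [sum_cube3]
        refine sum_congr rfl fun x _ => ?_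
        rw [sum_comm]
        refine sum_congr rfl fun z _ => ?_
        rw [sum_mul]
        exact sum_congr rfl fun y _ => by unfold e13; ring
    _ ≤ ∑ x ∈ iv k q.1, ∑ z ∈ iv k q.2.2, (2 ^ k * L) * b (x, z) ^ 2 :=
        sum_le_sum fun x hx => sum_le_sum fun z hz =>
          mul_le_mul_of_nonneg_right (h2 x hx z hz) (sq_nonneg _)
    _ = (2 ^ k * L) * ∑ x ∈ iv k q.1, ∑ z ∈ iv k q.2.2, b (x, z) ^ 2 := by
        simp_rw [← mul_sum]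
    _ = _ := by rw [h, eight]; ring

theorem sumF12 (a : ℤ × ℤ → ℝ)
    (h3 : ∀ x ∈ iv k q.1, ∀ y ∈ iv k q.2.1, ∑ z ∈ iv k q.2.2, F (x, y, z) ^ 2 ≤ 2 ^ k * L) :
    ∑ y ∈ cube3 k q, (F y * e12 a y) ^ 2 ≤ 8 ^ k * (L * n2 (cube3 k q) (e12 a) ^ 2) := by
  rw [n2_sq]
  have h := avg12 k q (fun t => t ^ 2) a
  calc ∑ y ∈ cube3 k q, (F y * e12 a y) ^ 2
      = ∑ x ∈ iv k q.1, ∑ y ∈ iv k q.2.1, (∑ z ∈ iv k q.2.2, F (x, y, z) ^ 2) * a (x, y) ^ 2 := by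
        rw [sum_cube3]
        refine sum_congr rfl fun x _ => sum_congr rfl fun y _ => ?_
        rw [sum_mul]
        exact sum_congr rfl fun z _ => by unfold e12; ring
    _ ≤ ∑ x ∈ iv k q.1, ∑ y ∈ iv k q.2.1, (2 ^ k * L) * a (x, y) ^ 2 :=
        sum_le_sum fun x hx => sum_le_sum fun y hy =>
          mul_le_mul_of_nonneg_right (h3 x hx y hy) (sq_nonneg _)
    _ = (2 ^ k * L) * ∑ x ∈ iv k q.1, ∑ y ∈ iv k q.2.1, a (x, y) ^ 2 := by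
        simp_rw [← mul_sum]
    _ = _ := by rw [h, eight]; ring

/-- the other factor -/
theorem sum_v2 (f g : ℤ × ℤ × ℤ → ℝ) :
    ∑ y ∈ cube3 k q, (f y * g y) ^ 2 = 8 ^ k * v2 (cube3 k q) f g := by
  unfold v2 avg
  rw [card_cube3', mul_inv_cancel_left₀ (by positivity)]
  exact sum_congr rfl fun y _ => by ring

theorem cs_abs (Q : Finset (ℤ × ℤ × ℤ)) (H f g : ℤ × ℤ × ℤ → ℝ)
    (h : ∀ y ∈ Q, |H y| = |f y| * |g y|) :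
    (∑ y ∈ Q, |H y|) ^ 2 ≤ (∑ y ∈ Q, f y ^ 2) * (∑ y ∈ Q, g y ^ 2) := by
  have h1 := sum_mul_sq_le_sq_mul_sq Q (fun y => |f y|) (fun y => |g y|)
  simp only [sq_abs] at h1
  rw [sum_congr rfl h]
  exact h1

/-- **First level, vertex `1`**: `W₁ = |a₂₃|₂ (E a₁₂² a₁₃²)^(1/2)`. -/
theorem first_g1 (u : Tri)
    (h1 : ∀ y ∈ iv k q.2.1, ∀ z ∈ iv k q.2.2, ∑ x ∈ iv k q.1, F (x, y, z) ^ 2 ≤ 2 ^ k * L) :
    (∑ y ∈ cube3 k q, |F y * atm u y|) ^ 2 ≤ (8 ^ k) ^ 2 * L *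
      (n2 (cube3 k q) (e23 u.2.2) ^ 2 * v2 (cube3 k q) (e12 u.1) (e13 u.2.1)) := by
  have h := cs_abs (cube3 k q) (fun y => F y * atm u y) (fun y => F y * e23 u.2.2 y)
    (fun y => e12 u.1 y * e13 u.2.1 y) (fun y _ => by
      rw [← abs_mul]; congr 1; unfold atm; ring)
  rw [sum_v2 (e12 u.1) (e13 u.2.1)] at h
  refine h.trans ?_
  have h' := mul_le_mul_of_nonneg_right (sumF23 u.2.2 h1)
    (mul_nonneg (by positivity : (0 : ℝ) ≤ 8 ^ k) (v2_nonneg (cube3 k q) (e12 u.1) (e13 u.2.1)))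
  exact h'.trans (le_of_eq (by ring))

/-- **First level, vertex `2`**: `W₂ = |a₁₃|₂ (E a₁₂² a₂₃²)^(1/2)`. -/
theorem first_g2 (u : Tri)
    (h2 : ∀ x ∈ iv k q.1, ∀ z ∈ iv k q.2.2, ∑ y ∈ iv k q.2.1, F (x, y, z) ^ 2 ≤ 2 ^ k * L) :
    (∑ y ∈ cube3 k q, |F y * atm u y|) ^ 2 ≤ (8 ^ k) ^ 2 * L *
      (n2 (cube3 k q) (e13 u.2.1) ^ 2 * v2 (cube3 k q) (e12 u.1) (e23 u.2.2)) := by
  have h := cs_abs (cube3 k q) (fun y => F y * atm u y) (fun y => F y * e13 u.2.1 y)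
    (fun y => e12 u.1 y * e23 u.2.2 y) (fun y _ => by
      rw [← abs_mul]; congr 1; unfold atm; ring)
  rw [sum_v2 (e12 u.1) (e23 u.2.2)] at h
  refine h.trans ?_
  have h' := mul_le_mul_of_nonneg_right (sumF13 u.2.1 h2)
    (mul_nonneg (by positivity : (0 : ℝ) ≤ 8 ^ k) (v2_nonneg (cube3 k q) (e12 u.1) (e23 u.2.2)))
  exact h'.trans (le_of_eq (by ring))

/-- **First level, vertex `3`**: `W₃ = |a₁₂|₂ (E a₁₃² a₂₃²)^(1/2)`. -/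
theorem first_g3 (u : Tri)
    (h3 : ∀ x ∈ iv k q.1, ∀ y ∈ iv k q.2.1, ∑ z ∈ iv k q.2.2, F (x, y, z) ^ 2 ≤ 2 ^ k * L) :
    (∑ y ∈ cube3 k q, |F y * atm u y|) ^ 2 ≤ (8 ^ k) ^ 2 * L *
      (n2 (cube3 k q) (e12 u.1) ^ 2 * v2 (cube3 k q) (e13 u.2.1) (e23 u.2.2)) := by
  have h := cs_abs (cube3 k q) (fun y => F y * atm u y) (fun y => F y * e12 u.1 y)
    (fun y => e13 u.2.1 y * e23 u.2.2 y) (fun y _ => by
      rw [← abs_mul]; congr 1; unfold atm; ring)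
  rw [sum_v2 (e13 u.2.1) (e23 u.2.2)] at h
  refine h.trans ?_
  have h' := mul_le_mul_of_nonneg_right (sumF12 u.1 h3)
    (mul_nonneg (by positivity : (0 : ℝ) ≤ 8 ^ k) (v2_nonneg (cube3 k q) (e13 u.2.1) (e23 u.2.2)))
  exact h'.trans (le_of_eq (by ring))

/-- the cube of the density -/
theorem pG_cube (Q : Finset (ℤ × ℤ × ℤ)) (u : Tri) :
    pG Q u ^ 6 = (n2 Q (e12 u.1) * n2 Q (e13 u.2.1) * n2 Q (e23 u.2.2)) ^ 2 *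
      (v2 Q (e12 u.1) (e13 u.2.1) * v2 Q (e12 u.1) (e23 u.2.2) *
        v2 Q (e13 u.2.1) (e23 u.2.2)) := by
  have h1 : 0 ≤ n2 Q (e12 u.1) * n2 Q (e13 u.2.1) * n2 Q (e23 u.2.2) :=
    mul_nonneg (mul_nonneg (n2_nonneg _ _) (n2_nonneg _ _)) (n2_nonneg _ _)
  have h2 : 0 ≤ v2 Q (e12 u.1) (e13 u.2.1) * v2 Q (e12 u.1) (e23 u.2.2) *
      v2 Q (e13 u.2.1) (e23 u.2.2) :=
    mul_nonneg (mul_nonneg (v2_nonneg _ _ _) (v2_nonneg _ _ _)) (v2_nonneg _ _ _)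
  unfold pG
  rw [mul_pow, ← Real.rpow_natCast (_ ^ (1 / 3 : ℝ)), ← Real.rpow_natCast (_ ^ (1 / 6 : ℝ)),
    ← Real.rpow_mul h1, ← Real.rpow_mul h2]
  norm_num

/-- **three vertex bounds give the geometric weight** -/
theorem le_wG_of {Q : Finset (ℤ × ℤ × ℤ)} {u : Tri} {S M : ℝ} (hL : 0 ≤ L)
    (hM : M = Q.card)
    (g1 : S ^ 2 ≤ M ^ 2 * L * (n2 Q (e23 u.2.2) ^ 2 * v2 Q (e12 u.1) (e13 u.2.1)))
    (g2 : S ^ 2 ≤ M ^ 2 * L * (n2 Q (e13 u.2.1) ^ 2 * v2 Q (e12 u.1) (e23 u.2.2)))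
    (g3 : S ^ 2 ≤ M ^ 2 * L * (n2 Q (e12 u.1) ^ 2 * v2 Q (e13 u.2.1) (e23 u.2.2))) :
    S ≤ wG (√L) Q u := by
  refine le_of_pow_le_pow_left₀ (n := 6) (by norm_num) (wG_nonneg (Real.sqrt_nonneg _) _ _) ?_
  have e1 : (√L) ^ 6 = L ^ 3 := by
    rw [show (√L) ^ 6 = ((√L) ^ 2) ^ 3 by ring, Real.sq_sqrt hL]
  have e2 : wG (√L) Q u ^ 6 = L ^ 3 * M ^ 6 *
      ((n2 Q (e12 u.1) * n2 Q (e13 u.2.1) * n2 Q (e23 u.2.2)) ^ 2 *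
      (v2 Q (e12 u.1) (e13 u.2.1) * v2 Q (e12 u.1) (e23 u.2.2) *
        v2 Q (e13 u.2.1) (e23 u.2.2))) := by
    unfold wG
    rw [mul_pow, mul_pow, pG_cube, e1, hM]
  have p1 : 0 ≤ M ^ 2 * L * (n2 Q (e23 u.2.2) ^ 2 * v2 Q (e12 u.1) (e13 u.2.1)) :=
    (sq_nonneg S).trans g1
  have p2 : 0 ≤ M ^ 2 * L * (n2 Q (e13 u.2.1) ^ 2 * v2 Q (e12 u.1) (e23 u.2.2)) :=
    (sq_nonneg S).trans g2
  rw [e2]
  calc S ^ 6 = S ^ 2 * S ^ 2 * S ^ 2 := by ring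
    _ ≤ _ := mul_le_mul (mul_le_mul g1 g2 (sq_nonneg _) p1) g3 (sq_nonneg _) (mul_nonneg p1 p2)
    _ = _ := by ring

/-- **First level**: a function with line averages of its square at most `L` is `√L`-uniform for
the geometric weight. -/
theorem first_wG (u : Tri) (hL : 0 ≤ L)
    (h1 : ∀ y ∈ iv k q.2.1, ∀ z ∈ iv k q.2.2, ∑ x ∈ iv k q.1, F (x, y, z) ^ 2 ≤ 2 ^ k * L)
    (h2 : ∀ x ∈ iv k q.1, ∀ z ∈ iv k q.2.2, ∑ y ∈ iv k q.2.1, F (x, y, z) ^ 2 ≤ 2 ^ k * L)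
    (h3 : ∀ x ∈ iv k q.1, ∀ y ∈ iv k q.2.1, ∑ z ∈ iv k q.2.2, F (x, y, z) ^ 2 ≤ 2 ^ k * L) :
    ∑ y ∈ cube3 k q, |F y * atm u y| ≤ wG (√L) (cube3 k q) u :=
  le_wG_of hL (card_cube3' k q).symm (first_g1 u h1)
    (first_g2 u h2) (first_g3 u h3)

end

end

end Vale.Agent.P141.H628
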