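import Vale.Agent.P141.H628.ClsG
import Vale.Agent.P141.H628.FirstG

/-!
# P141, line W: classes at a vertex by the two degrees

For nonnegative functions `p, q` on a finite set `A` the points with `p, q > 0` are divided into the
dyadic classes `c = (m, n)`, `2 ^ m ≤ p < 2 ^ (m + 1)`, `2 ^ n ≤ q < 2 ^ (n + 1)`, with density
`dns c`; `tau c = dns c ^ (1/3) 2 ^ ((m + n) / 4)` and
`∑ tau c ≤ C (E p) ^ (1/12) (E q) ^ (1/12) (E p q) ^ (1/6)`.
-/

namespace Vale.Agent.P141.H628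

open Finset
open Vale.Agent.P141.PL.H315 (avg avg_nonneg)

noncomputable section

open scoped Classical

variable {X : Type*}

/-- the class of a point -/
def clv (p q : X → ℝ) (x : X) : ℤ × ℤ := (Int.log 2 (p x), Int.log 2 (q x))

/-- the points with both degrees positive -/
def spt (A : Finset X) (p q : X → ℝ) : Finset X := A.filter fun x => 0 < p x ∧ 0 < q x

/-- the classes -/
def cls (A : Finset X) (p q : X → ℝ) : Finset (ℤ × ℤ) := (spt A p q).image (clv p q)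

/-- the points of a class -/
def cel (A : Finset X) (p q : X → ℝ) (c : ℤ × ℤ) : Finset X :=
  (spt A p q).filter fun x => clv p q x = c

/-- the density of a class -/
def dns (A : Finset X) (p q : X → ℝ) (c : ℤ × ℤ) : ℝ := (cel A p q c).card / A.card

/-- the value of a class -/
def tau (A : Finset X) (p q : X → ℝ) (c : ℤ × ℤ) : ℝ :=
  dns A p q c ^ (1 / 3 : ℝ) * (2 : ℝ) ^ (((c.1 + c.2 : ℤ) : ℝ) / 4)

theorem dns_nonneg (A : Finset X) (p q : X → ℝ) (c : ℤ × ℤ) : 0 ≤ dns A p q c := by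
  unfold dns; positivity

theorem tau_nonneg (A : Finset X) (p q : X → ℝ) (c : ℤ × ℤ) : 0 ≤ tau A p q c :=
  mul_nonneg (Real.rpow_nonneg (dns_nonneg _ _ _ _) _) (by positivity)

theorem mem_cel {A : Finset X} {p q : X → ℝ} {c : ℤ × ℤ} {x : X} :
    x ∈ cel A p q c ↔ (x ∈ A ∧ 0 < p x ∧ 0 < q x) ∧ clv p q x = c := by
  unfold cel spt
  rw [mem_filter, mem_filter]

theorem cel_subset (A : Finset X) (p q : X → ℝ) (c : ℤ × ℤ) : cel A p q c ⊆ A :=
  fun _ hx => (mem_cel.1 hx).1.1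

/-- the bounds of the two degrees on a class -/
theorem cel_bounds {A : Finset X} {p q : X → ℝ} {c : ℤ × ℤ} {x : X} (hx : x ∈ cel A p q c) :
    (2 : ℝ) ^ c.1 ≤ p x ∧ p x ≤ 2 * 2 ^ c.1 ∧ (2 : ℝ) ^ c.2 ≤ q x ∧ q x ≤ 2 * 2 ^ c.2 := by
  obtain ⟨⟨_, hp, hq⟩, rfl⟩ := mem_cel.1 hx
  have e2 : (((2 : ℕ) : ℝ)) = 2 := by norm_num
  have h1 := Int.zpow_log_le_self (b := 2) (r := p x) (by norm_num) hp
  have h2 := Int.lt_zpow_succ_log_self (b := 2) (by norm_num) (p x)
  have h3 := Int.zpow_log_le_self (b := 2) (r := q x) (by norm_num) hq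
  have h4 := Int.lt_zpow_succ_log_self (b := 2) (by norm_num) (q x)
  rw [e2] at h1 h2 h3 h4
  rw [zpow_add_one₀ (by norm_num)] at h2 h4
  unfold clv
  refine ⟨h1, ?_, h3, ?_⟩ <;> linarith

/-- the three forms of the value -/
theorem tau_eq (A : Finset X) (p q : X → ℝ) (c : ℤ × ℤ) :
    tau A p q c = ((2 : ℝ) ^ c.1 * dns A p q c) ^ (1 / 12 : ℝ) *
      ((2 : ℝ) ^ c.2 * dns A p q c) ^ (1 / 12 : ℝ) *
      ((2 : ℝ) ^ (c.1 + c.2) * dns A p q c) ^ (1 / 6 : ℝ) := by
  have hd := dns_nonneg A p q c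
  have e1 : (1 / 3 : ℝ) = 1 / 12 + 1 / 12 + 1 / 6 := by norm_num
  have e2 : (2 : ℝ) ^ (((c.1 + c.2 : ℤ) : ℝ) / 4) =
      ((2 : ℝ) ^ c.1) ^ (1 / 12 : ℝ) * ((2 : ℝ) ^ c.2) ^ (1 / 12 : ℝ) *
        ((2 : ℝ) ^ (c.1 + c.2)) ^ (1 / 6 : ℝ) := by
    rw [← Real.rpow_intCast, ← Real.rpow_intCast, ← Real.rpow_intCast,
      ← Real.rpow_mul (by norm_num), ← Real.rpow_mul (by norm_num), ← Real.rpow_mul (by norm_num),
      ← Real.rpow_add (by norm_num), ← Real.rpow_add (by norm_num)]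
    congr 1
    push_cast
    ring
  unfold tau
  rw [Real.mul_rpow (by positivity) hd, Real.mul_rpow (by positivity) hd,
    Real.mul_rpow (by positivity) hd, e1,
    Real.rpow_add_of_nonneg hd (by norm_num) (by norm_num),
    Real.rpow_add_of_nonneg hd (by norm_num) (by norm_num), e2]
  ring

/-- a lower bound on a class gives a bound of the mass of the class -/
theorem mass_le {A : Finset X} {p q f : X → ℝ} {c : ℤ × ℤ} {l : ℝ} (hf : ∀ x ∈ A, 0 ≤ f x)
    (hl : ∀ x ∈ cel A p q c, l ≤ f x) : l * dns A p q c ≤ avg A f := by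
  unfold dns avg
  rw [mul_div_assoc', div_eq_inv_mul]
  refine mul_le_mul_of_nonneg_left ?_ (by positivity)
  calc l * (cel A p q c).card = ∑ _x ∈ cel A p q c, l := by
        rw [sum_const, nsmul_eq_mul]; ring
    _ ≤ ∑ x ∈ cel A p q c, f x := sum_le_sum hl
    _ ≤ _ := sum_le_sum_of_subset_of_nonneg (cel_subset A p q c) fun x hx _ => hf x hx

/-- **The vertex lemma.** -/
theorem sum_tau_le (A : Finset X) {p q : X → ℝ} (hp : ∀ x ∈ A, 0 ≤ p x) (hq : ∀ x ∈ A, 0 ≤ q x) :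
    ∑ c ∈ cls A p q, tau A p q c ≤ gC (1 / 12) ^ 2 *
      (avg A p ^ (1 / 12 : ℝ) * avg A q ^ (1 / 12 : ℝ) *
        avg A (fun x => p x * q x) ^ (1 / 6 : ℝ)) := by
  rw [sum_congr rfl fun c _ => tau_eq A p q c]
  refine three_sum (κ := 1 / 12) (by norm_num) le_rfl le_rfl (by norm_num) _ _
    (fun c _ => dns_nonneg _ _ _ _) (avg_nonneg hp) (avg_nonneg hq)
    (avg_nonneg fun x hx => mul_nonneg (hp x hx) (hq x hx)) ?_ ?_ ?_
  · exact fun c _ => mass_le hp fun x hx => (cel_bounds hx).1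
  · exact fun c _ => mass_le hq fun x hx => (cel_bounds hx).2.2.1
  · refine fun c _ => mass_le (fun x hx => mul_nonneg (hp x hx) (hq x hx)) fun x hx => ?_
    have h := cel_bounds hx
    rw [zpow_add₀ (by norm_num)]
    exact mul_le_mul h.1 h.2.2.1 (by positivity) (hp x (cel_subset _ _ _ _ hx))

/-- the points of the support are the disjoint union of the classes -/
theorem sum_cls (A : Finset X) (p q : X → ℝ) (x : X) (hx : x ∈ spt A p q) :
    ∑ c ∈ cls A p q, (if x ∈ cel A p q c then (1 : ℝ) else 0) = 1 := by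
  rw [sum_eq_single_of_mem (clv p q x) (show clv p q x ∈ cls A p q from mem_image_of_mem _ hx)]
  · rw [if_pos]
    unfold cel
    exact mem_filter.2 ⟨hx, rfl⟩
  · intro c _ hc
    rw [if_neg]
    intro h
    exact hc (mem_cel.1 h).2.symm

end

end Vale.Agent.P141.H628
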