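import Vale.Agent.P141.H922.PairW

/-!
# P141, line W, scale-invariant version: the first level in the pair weight

For `F` with line averages of `F ^ 2` at most `L` in the three directions,
`∑ |F| |a12 a13 a23| ≤ |Q| √L N(a) N(b) |c|₂` for every choice of the roles.
-/

namespace Vale.Agent.P141.H628

open Finset
open Vale.Agent.P141.PL.H315 (avg avg_nonneg e12 e13 e23 Tri atm cube3 mem_cube3 card_cube3 iv
  card_iv loomis_whitney)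
open Vale.Agent.P141.H922

noncomputable section

section abstract

variable {α β γ : Type*} (A : Finset α) (B : Finset β) (C : Finset γ)

/-- Cauchy-Schwarz for triple sums -/
theorem cs3 (f g : α → β → γ → ℝ) :
    (∑ x ∈ A, ∑ y ∈ B, ∑ z ∈ C, f x y z * g x y z) ^ 2 ≤
      (∑ x ∈ A, ∑ y ∈ B, ∑ z ∈ C, f x y z ^ 2) * (∑ x ∈ A, ∑ y ∈ B, ∑ z ∈ C, g x y z ^ 2) := by
  have h := sum_mul_sq_le_sq_mul_sq (A ×ˢ B ×ˢ C) (fun w => f w.1 w.2.1 w.2.2)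
    (fun w => g w.1 w.2.1 w.2.2)
  simpa only [sum_product] using h

variable {A B C}

/-- the core: `b` is the edge in `L⁴` -/
theorem core13 {F : α → β → γ → ℝ} {a : α → β → ℝ} {b : α → γ → ℝ} {c : β → γ → ℝ}
    {lA lC : ℝ} (ha : ∀ x y, 0 ≤ a x y) (hc : ∀ y z, 0 ≤ c y z)
    (hA : ∀ y ∈ B, ∀ z ∈ C, ∑ x ∈ A, F x y z ^ 2 ≤ lA)
    (hC : ∀ x ∈ A, ∀ y ∈ B, ∑ z ∈ C, F x y z ^ 2 ≤ lC) :
    (∑ x ∈ A, ∑ y ∈ B, ∑ z ∈ C, F x y z * (a x y * b x z * c y z)) ^ 4 ≤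
      lA * lC * (∑ x ∈ A, ∑ y ∈ B, a x y ^ 2) ^ 2 * (∑ y ∈ B, ∑ z ∈ C, c y z ^ 2) ^ 2 *
        (∑ x ∈ A, ∑ z ∈ C, b x z ^ 4) := by
  set Sa := ∑ x ∈ A, ∑ y ∈ B, a x y ^ 2 with hSa
  set Sc := ∑ y ∈ B, ∑ z ∈ C, c y z ^ 2 with hSc
  set Sb := ∑ x ∈ A, ∑ z ∈ C, b x z ^ 4 with hSb
  have Sa0 : 0 ≤ Sa := sum_nonneg fun _ _ => sum_nonneg fun _ _ => sq_nonneg _
  have Sc0 : 0 ≤ Sc := sum_nonneg fun _ _ => sum_nonneg fun _ _ => sq_nonneg _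
  have Sb0 : 0 ≤ Sb := sum_nonneg fun _ _ => sum_nonneg fun _ _ => by positivity
  -- first Cauchy-Schwarz
  have h1 := cs3 A B C (fun x y z => F x y z * √(a x y * c y z))
    (fun x y z => b x z * √(a x y * c y z))
  have e1 : ∀ x y z, F x y z * √(a x y * c y z) * (b x z * √(a x y * c y z)) =
      F x y z * (a x y * b x z * c y z) := by
    intro x y z
    have := Real.mul_self_sqrt (mul_nonneg (ha x y) (hc y z))
    calc _ = F x y z * b x z * (√(a x y * c y z) * √(a x y * c y z)) := by ring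
      _ = _ := by rw [this]; ring
  have e2 : ∀ x y z, (F x y z * √(a x y * c y z)) ^ 2 = F x y z ^ 2 * (a x y * c y z) := by
    intro x y z
    rw [mul_pow, Real.sq_sqrt (mul_nonneg (ha x y) (hc y z))]
  have e3 : ∀ x y z, (b x z * √(a x y * c y z)) ^ 2 = a x y * b x z ^ 2 * c y z := by
    intro x y z
    rw [mul_pow, Real.sq_sqrt (mul_nonneg (ha x y) (hc y z))]
    ring
  simp only [e1, e2, e3] at h1
  set S := ∑ x ∈ A, ∑ y ∈ B, ∑ z ∈ C, F x y z * (a x y * b x z * c y z)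
  set P := ∑ x ∈ A, ∑ y ∈ B, ∑ z ∈ C, F x y z ^ 2 * (a x y * c y z) with hP
  set R := ∑ x ∈ A, ∑ y ∈ B, ∑ z ∈ C, a x y * b x z ^ 2 * c y z with hR
  -- the two factors
  have hP2 : P ^ 2 ≤ (lC * Sa) * (lA * Sc) := by
    have h2 := cs3 A B C (fun x y z => F x y z * a x y) (fun x y z => F x y z * c y z)
    have e4 : ∀ x y z, F x y z * a x y * (F x y z * c y z) = F x y z ^ 2 * (a x y * c y z) :=
      fun x y z => by ring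
    simp only [e4] at h2
    have h3 : ∑ x ∈ A, ∑ y ∈ B, ∑ z ∈ C, (F x y z * a x y) ^ 2 ≤ lC * Sa := by
      rw [hSa, mul_sum]
      refine sum_le_sum fun x hx => ?_
      rw [mul_sum]
      refine sum_le_sum fun y hy => ?_
      calc ∑ z ∈ C, (F x y z * a x y) ^ 2 = (∑ z ∈ C, F x y z ^ 2) * a x y ^ 2 := by
            rw [sum_mul]; exact sum_congr rfl fun z _ => by ring
        _ ≤ _ := mul_le_mul_of_nonneg_right (hC x hx y hy) (sq_nonneg _)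
    have h4 : ∑ x ∈ A, ∑ y ∈ B, ∑ z ∈ C, (F x y z * c y z) ^ 2 ≤ lA * Sc := by
      rw [hSc, sum_comm, mul_sum]
      refine sum_le_sum fun y hy => ?_
      rw [sum_comm, mul_sum]
      refine sum_le_sum fun z hz => ?_
      calc ∑ x ∈ A, (F x y z * c y z) ^ 2 = (∑ x ∈ A, F x y z ^ 2) * c y z ^ 2 := by
            rw [sum_mul]; exact sum_congr rfl fun x _ => by ring
        _ ≤ _ := mul_le_mul_of_nonneg_right (hA y hy z hz) (sq_nonneg _)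
    have h5 : 0 ≤ ∑ x ∈ A, ∑ y ∈ B, ∑ z ∈ C, (F x y z * c y z) ^ 2 :=
      sum_nonneg fun _ _ => sum_nonneg fun _ _ => sum_nonneg fun _ _ => sq_nonneg _
    have h6 : 0 ≤ ∑ x ∈ A, ∑ y ∈ B, ∑ z ∈ C, (F x y z * a x y) ^ 2 :=
      sum_nonneg fun _ _ => sum_nonneg fun _ _ => sum_nonneg fun _ _ => sq_nonneg _
    exact h2.trans (mul_le_mul h3 h4 h5 (h6.trans h3))
  have hR2 : R ^ 2 ≤ Sa * Sb * Sc := by
    have h2 := loomis_whitney A B C a (fun x z => b x z ^ 2) c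
    refine h2.trans (le_of_eq ?_)
    have e5 : ∀ x z, (b x z ^ 2) ^ 2 = b x z ^ 4 := fun x z => by ring
    simp only [e5]
    rfl
  have P0 : 0 ≤ P := sum_nonneg fun x _ => sum_nonneg fun y _ => sum_nonneg fun z _ =>
    mul_nonneg (sq_nonneg _) (mul_nonneg (ha x y) (hc y z))
  have R0 : 0 ≤ R := sum_nonneg fun x _ => sum_nonneg fun y _ => sum_nonneg fun z _ =>
    mul_nonneg (mul_nonneg (ha x y) (sq_nonneg _)) (hc y z)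
  calc S ^ 4 = (S ^ 2) ^ 2 := by ring
    _ ≤ (P * R) ^ 2 := pow_le_pow_left₀ (sq_nonneg _) h1 2
    _ = P ^ 2 * R ^ 2 := by ring
    _ ≤ ((lC * Sa) * (lA * Sc)) * (Sa * Sb * Sc) :=
        mul_le_mul hP2 hR2 (sq_nonneg _) ((sq_nonneg _).trans hP2)
    _ = _ := by ring

/-- the core: `a` is the edge in `L⁴` -/
theorem core12 {F : α → β → γ → ℝ} {a : α → β → ℝ} {b : α → γ → ℝ} {c : β → γ → ℝ}
    {lA lB : ℝ} (hb : ∀ x z, 0 ≤ b x z) (hc : ∀ y z, 0 ≤ c y z)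
    (hA : ∀ y ∈ B, ∀ z ∈ C, ∑ x ∈ A, F x y z ^ 2 ≤ lA)
    (hB : ∀ x ∈ A, ∀ z ∈ C, ∑ y ∈ B, F x y z ^ 2 ≤ lB) :
    (∑ x ∈ A, ∑ y ∈ B, ∑ z ∈ C, F x y z * (a x y * b x z * c y z)) ^ 4 ≤
      lA * lB * (∑ x ∈ A, ∑ z ∈ C, b x z ^ 2) ^ 2 * (∑ y ∈ B, ∑ z ∈ C, c y z ^ 2) ^ 2 *
        (∑ x ∈ A, ∑ y ∈ B, a x y ^ 4) := by
  have h := core13 (A := A) (B := C) (C := B) (F := fun x z y => F x y z) (a := b) (b := a)
    (c := fun z y => c y z) (lA := lA) (lC := lB) hb (fun z y => hc y z)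
    (fun z hz y hy => hA y hy z hz) (fun x hx z hz => hB x hx z hz)
  have e1 : ∑ x ∈ A, ∑ z ∈ C, ∑ y ∈ B, F x y z * (b x z * a x y * c y z) =
      ∑ x ∈ A, ∑ y ∈ B, ∑ z ∈ C, F x y z * (a x y * b x z * c y z) := by
    refine sum_congr rfl fun x _ => ?_
    rw [sum_comm]
    exact sum_congr rfl fun y _ => sum_congr rfl fun z _ => by ring
  rw [e1, sum_comm (s := C)] at h
  exact h

/-- the core: `c` is the edge in `L⁴` -/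
theorem core23 {F : α → β → γ → ℝ} {a : α → β → ℝ} {b : α → γ → ℝ} {c : β → γ → ℝ}
    {lB lC : ℝ} (ha : ∀ x y, 0 ≤ a x y) (hb : ∀ x z, 0 ≤ b x z)
    (hB : ∀ x ∈ A, ∀ z ∈ C, ∑ y ∈ B, F x y z ^ 2 ≤ lB)
    (hC : ∀ x ∈ A, ∀ y ∈ B, ∑ z ∈ C, F x y z ^ 2 ≤ lC) :
    (∑ x ∈ A, ∑ y ∈ B, ∑ z ∈ C, F x y z * (a x y * b x z * c y z)) ^ 4 ≤
      lB * lC * (∑ x ∈ A, ∑ y ∈ B, a x y ^ 2) ^ 2 * (∑ x ∈ A, ∑ z ∈ C, b x z ^ 2) ^ 2 *
        (∑ y ∈ B, ∑ z ∈ C, c y z ^ 4) := by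
  have h := core13 (A := B) (B := A) (C := C) (F := fun y x z => F x y z)
    (a := fun y x => a x y) (b := c) (c := b) (lA := lB) (lC := lC) (fun y x => ha x y) hb
    (fun x hx z hz => hB x hx z hz) (fun y hy x hx => hC x hx y hy)
  have e1 : ∑ y ∈ B, ∑ x ∈ A, ∑ z ∈ C, F x y z * (a x y * c y z * b x z) =
      ∑ x ∈ A, ∑ y ∈ B, ∑ z ∈ C, F x y z * (a x y * b x z * c y z) := by
    rw [sum_comm]
    exact sum_congr rfl fun x _ => sum_congr rfl fun y _ => sum_congr rfl fun z _ => by ring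
  rw [e1, sum_comm (s := B) (t := A)] at h
  exact h

end abstract

/-! ### cubes -/

theorem sum_cube3 (k : ℕ) (q : ℤ × ℤ × ℤ) (f : ℤ × ℤ × ℤ → ℝ) :
    ∑ y ∈ cube3 k q, f y = ∑ x ∈ iv k q.1, ∑ y ∈ iv k q.2.1, ∑ z ∈ iv k q.2.2, f (x, y, z) := by
  unfold cube3
  rw [sum_product]
  exact sum_congr rfl fun x _ => by rw [sum_product]

theorem card_iv' (k : ℕ) (x : ℤ) : ((iv k x).card : ℝ) = 2 ^ k := by
  rw [card_iv]; push_cast; rfl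

theorem card_cube3' (k : ℕ) (q : ℤ × ℤ × ℤ) : ((cube3 k q).card : ℝ) = 8 ^ k := by
  rw [card_cube3]; push_cast; rfl

theorem eight (k : ℕ) : (8 : ℝ) ^ k = 2 ^ k * 4 ^ k := by rw [← mul_pow]; norm_num

theorem avg12 (k : ℕ) (q : ℤ × ℤ × ℤ) (φ : ℝ → ℝ) (a : ℤ × ℤ → ℝ) :
    ∑ x ∈ iv k q.1, ∑ y ∈ iv k q.2.1, φ (a (x, y)) =
      4 ^ k * avg (cube3 k q) (fun y => φ (e12 a y)) := by
  unfold avg e12
  rw [sum_cube3, card_cube3']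
  simp only [sum_const, nsmul_eq_mul, card_iv']
  rw [eight]
  simp_rw [← mul_sum]
  field_simp

theorem avg13 (k : ℕ) (q : ℤ × ℤ × ℤ) (φ : ℝ → ℝ) (a : ℤ × ℤ → ℝ) :
    ∑ x ∈ iv k q.1, ∑ z ∈ iv k q.2.2, φ (a (x, z)) =
      4 ^ k * avg (cube3 k q) (fun y => φ (e13 a y)) := by
  unfold avg e13
  rw [sum_cube3, card_cube3']
  simp only [sum_const, nsmul_eq_mul, card_iv']
  rw [eight]
  simp_rw [← mul_sum]
  field_simp

theorem avg23 (k : ℕ) (q : ℤ × ℤ × ℤ) (φ : ℝ → ℝ) (a : ℤ × ℤ → ℝ) :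
    ∑ y ∈ iv k q.2.1, ∑ z ∈ iv k q.2.2, φ (a (y, z)) =
      4 ^ k * avg (cube3 k q) (fun y => φ (e23 a y)) := by
  unfold avg e23
  rw [sum_cube3, card_cube3']
  simp only [sum_const, nsmul_eq_mul, card_iv']
  rw [eight]
  field_simp

theorem nN_eight {X : Type*} (Q : Finset X) (f : X → ℝ) :
    nN Q f ^ 8 = (avg Q fun x => f x ^ 2) ^ 2 * (avg Q fun x => f x ^ 4) := by
  calc nN Q f ^ 8 = (nN Q f ^ 2) ^ 4 := by ring
    _ = (n2 Q f ^ 2) ^ 2 * n4 Q f ^ 4 := by rw [nN_sq]; ring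
    _ = _ := by rw [n2_sq, n4_four]

theorem n2_eight {X : Type*} (Q : Finset X) (f : X → ℝ) :
    n2 Q f ^ 8 = (avg Q fun x => f x ^ 2) ^ 4 := by
  rw [← n2_sq]; ring

/-- the triple sum with absolute values -/
def S3 (k : ℕ) (q : ℤ × ℤ × ℤ) (F : ℤ × ℤ × ℤ → ℝ) (u : Tri) : ℝ :=
  ∑ x ∈ iv k q.1, ∑ y ∈ iv k q.2.1, ∑ z ∈ iv k q.2.2,
    |F (x, y, z)| * (|u.1 (x, y)| * |u.2.1 (x, z)| * |u.2.2 (y, z)|)

theorem S3_eq (k : ℕ) (q : ℤ × ℤ × ℤ) (F : ℤ × ℤ × ℤ → ℝ) (u : Tri) :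
    ∑ y ∈ cube3 k q, |F y * atm u y| = S3 k q F u := by
  rw [sum_cube3]
  unfold S3
  refine sum_congr rfl fun x _ => sum_congr rfl fun y _ => sum_congr rfl fun z _ => ?_
  unfold atm e12 e13 e23
  rw [abs_mul, abs_mul, abs_mul]

section

variable {k : ℕ} {q : ℤ × ℤ × ℤ} {F : ℤ × ℤ × ℤ → ℝ} {L : ℝ}

theorem core13' (u : Tri)
    (h1 : ∀ y ∈ iv k q.2.1, ∀ z ∈ iv k q.2.2, ∑ x ∈ iv k q.1, F (x, y, z) ^ 2 ≤ 2 ^ k * L)
    (h3 : ∀ x ∈ iv k q.1, ∀ y ∈ iv k q.2.1, ∑ z ∈ iv k q.2.2, F (x, y, z) ^ 2 ≤ 2 ^ k * L) :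
    S3 k q F u ^ 4 ≤ (2 ^ k * L) * (2 ^ k * L) *
      (4 ^ k * avg (cube3 k q) (fun y => e12 u.1 y ^ 2)) ^ 2 *
      (4 ^ k * avg (cube3 k q) (fun y => e23 u.2.2 y ^ 2)) ^ 2 *
      (4 ^ k * avg (cube3 k q) (fun y => e13 u.2.1 y ^ 4)) := by
  have h := core13 (A := iv k q.1) (B := iv k q.2.1) (C := iv k q.2.2)
    (F := fun x y z => |F (x, y, z)|) (a := fun x y => |u.1 (x, y)|)
    (b := fun x z => |u.2.1 (x, z)|) (c := fun y z => |u.2.2 (y, z)|)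
    (lA := 2 ^ k * L) (lC := 2 ^ k * L) (fun _ _ => abs_nonneg _) (fun _ _ => abs_nonneg _)
    (fun y hy z hz => by simpa only [sq_abs] using h1 y hy z hz)
    (fun x hx y hy => by simpa only [sq_abs] using h3 x hx y hy)
  have e4 : ∀ t : ℝ, |t| ^ 4 = t ^ 4 := fun t => by
    rw [show |t| ^ 4 = (|t| ^ 2) ^ 2 by ring, sq_abs]; ring
  simp only [sq_abs, e4] at h
  rw [avg12 k q (fun t => t ^ 2) u.1, avg23 k q (fun t => t ^ 2) u.2.2,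
    avg13 k q (fun t => t ^ 4) u.2.1] at h
  exact h

theorem core12' (u : Tri)
    (h1 : ∀ y ∈ iv k q.2.1, ∀ z ∈ iv k q.2.2, ∑ x ∈ iv k q.1, F (x, y, z) ^ 2 ≤ 2 ^ k * L)
    (h2 : ∀ x ∈ iv k q.1, ∀ z ∈ iv k q.2.2, ∑ y ∈ iv k q.2.1, F (x, y, z) ^ 2 ≤ 2 ^ k * L) :
    S3 k q F u ^ 4 ≤ (2 ^ k * L) * (2 ^ k * L) *
      (4 ^ k * avg (cube3 k q) (fun y => e13 u.2.1 y ^ 2)) ^ 2 *
      (4 ^ k * avg (cube3 k q) (fun y => e23 u.2.2 y ^ 2)) ^ 2 *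
      (4 ^ k * avg (cube3 k q) (fun y => e12 u.1 y ^ 4)) := by
  have h := core12 (A := iv k q.1) (B := iv k q.2.1) (C := iv k q.2.2)
    (F := fun x y z => |F (x, y, z)|) (a := fun x y => |u.1 (x, y)|)
    (b := fun x z => |u.2.1 (x, z)|) (c := fun y z => |u.2.2 (y, z)|)
    (lA := 2 ^ k * L) (lB := 2 ^ k * L) (fun _ _ => abs_nonneg _) (fun _ _ => abs_nonneg _)
    (fun y hy z hz => by simpa only [sq_abs] using h1 y hy z hz)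
    (fun x hx z hz => by simpa only [sq_abs] using h2 x hx z hz)
  have e4 : ∀ t : ℝ, |t| ^ 4 = t ^ 4 := fun t => by
    rw [show |t| ^ 4 = (|t| ^ 2) ^ 2 by ring, sq_abs]; ring
  simp only [sq_abs, e4] at h
  rw [avg13 k q (fun t => t ^ 2) u.2.1, avg23 k q (fun t => t ^ 2) u.2.2,
    avg12 k q (fun t => t ^ 4) u.1] at h
  exact h

theorem core23' (u : Tri)
    (h2 : ∀ x ∈ iv k q.1, ∀ z ∈ iv k q.2.2, ∑ y ∈ iv k q.2.1, F (x, y, z) ^ 2 ≤ 2 ^ k * L)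
    (h3 : ∀ x ∈ iv k q.1, ∀ y ∈ iv k q.2.1, ∑ z ∈ iv k q.2.2, F (x, y, z) ^ 2 ≤ 2 ^ k * L) :
    S3 k q F u ^ 4 ≤ (2 ^ k * L) * (2 ^ k * L) *
      (4 ^ k * avg (cube3 k q) (fun y => e12 u.1 y ^ 2)) ^ 2 *
      (4 ^ k * avg (cube3 k q) (fun y => e13 u.2.1 y ^ 2)) ^ 2 *
      (4 ^ k * avg (cube3 k q) (fun y => e23 u.2.2 y ^ 4)) := by
  have h := core23 (A := iv k q.1) (B := iv k q.2.1) (C := iv k q.2.2)
    (F := fun x y z => |F (x, y, z)|) (a := fun x y => |u.1 (x, y)|)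
    (b := fun x z => |u.2.1 (x, z)|) (c := fun y z => |u.2.2 (y, z)|)
    (lB := 2 ^ k * L) (lC := 2 ^ k * L) (fun _ _ => abs_nonneg _) (fun _ _ => abs_nonneg _)
    (fun x hx z hz => by simpa only [sq_abs] using h2 x hx z hz)
    (fun x hx y hy => by simpa only [sq_abs] using h3 x hx y hy)
  have e4 : ∀ t : ℝ, |t| ^ 4 = t ^ 4 := fun t => by
    rw [show |t| ^ 4 = (|t| ^ 2) ^ 2 by ring, sq_abs]; ring
  simp only [sq_abs, e4] at h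
  rw [avg12 k q (fun t => t ^ 2) u.1, avg13 k q (fun t => t ^ 2) u.2.1,
    avg23 k q (fun t => t ^ 4) u.2.2] at h
  exact h

theorem pw8 {S X Y : ℝ} (hX : 0 ≤ X) (h1 : S ^ 4 ≤ X) (h2 : S ^ 4 ≤ Y) : S ^ 8 ≤ X * Y := by
  have h0 : 0 ≤ S ^ 4 := by positivity
  calc S ^ 8 = S ^ 4 * S ^ 4 := by ring
    _ ≤ _ := mul_le_mul h1 h2 h0 hX

theorem p24 (k : ℕ) : (2 ^ k : ℝ) ^ 4 * (4 ^ k) ^ 10 = (8 ^ k) ^ 8 := by
  rw [eight]
  have : (4 : ℝ) ^ k = 2 ^ k * 2 ^ k := by rw [← mul_pow]; norm_num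
  rw [this]; ring

theorem e8 (m s a b c : ℝ) : (m * s * (a * b * c)) ^ 8 =
    m ^ 8 * s ^ 8 * (a ^ 8 * b ^ 8 * c ^ 8) := by ring

/-- **First level**, `a13`, `a12` in the geometric mean norm, `a23` in `L²`. -/
theorem first_a (u : Tri) (hL : 0 ≤ L)
    (h1 : ∀ y ∈ iv k q.2.1, ∀ z ∈ iv k q.2.2, ∑ x ∈ iv k q.1, F (x, y, z) ^ 2 ≤ 2 ^ k * L)
    (h2 : ∀ x ∈ iv k q.1, ∀ z ∈ iv k q.2.2, ∑ y ∈ iv k q.2.1, F (x, y, z) ^ 2 ≤ 2 ^ k * L)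
    (h3 : ∀ x ∈ iv k q.1, ∀ y ∈ iv k q.2.1, ∑ z ∈ iv k q.2.2, F (x, y, z) ^ 2 ≤ 2 ^ k * L) :
    ∑ y ∈ cube3 k q, |F y * atm u y| ≤ 8 ^ k * √L *
      (nN (cube3 k q) (e12 u.1) * nN (cube3 k q) (e13 u.2.1) * n2 (cube3 k q) (e23 u.2.2)) := by
  rw [S3_eq]
  set Q := cube3 k q with hQ
  have hR : 0 ≤ 8 ^ k * √L * (nN Q (e12 u.1) * nN Q (e13 u.2.1) * n2 Q (e23 u.2.2)) :=
    mul_nonneg (by positivity) (mul_nonneg (mul_nonneg (nN_nonneg _ _) (nN_nonneg _ _))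
      (n2_nonneg _ _))
  refine le_of_pow_le_pow_left₀ (n := 8) (by norm_num) hR ?_
  have a1 := avg_sq_nonneg Q (e12 u.1)
  have a2 := avg_sq_nonneg Q (e13 u.2.1)
  have a3 := avg_sq_nonneg Q (e23 u.2.2)
  have b1 := avg_four_nonneg Q (e12 u.1)
  have b2 := avg_four_nonneg Q (e13 u.2.1)
  refine (pw8 (by positivity) (core13' u h1 h3) (core12' u h1 h2)).trans (le_of_eq ?_)
  have e1 : (√L) ^ 8 = L ^ 4 := by
    rw [show (√L) ^ 8 = ((√L) ^ 2) ^ 4 by ring, Real.sq_sqrt hL]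
  rw [e8, nN_eight, nN_eight, n2_eight, e1, ← p24]
  ring

/-- **First level**, `a12`, `a23` in the geometric mean norm, `a13` in `L²`. -/
theorem first_b (u : Tri) (hL : 0 ≤ L)
    (h1 : ∀ y ∈ iv k q.2.1, ∀ z ∈ iv k q.2.2, ∑ x ∈ iv k q.1, F (x, y, z) ^ 2 ≤ 2 ^ k * L)
    (h2 : ∀ x ∈ iv k q.1, ∀ z ∈ iv k q.2.2, ∑ y ∈ iv k q.2.1, F (x, y, z) ^ 2 ≤ 2 ^ k * L)
    (h3 : ∀ x ∈ iv k q.1, ∀ y ∈ iv k q.2.1, ∑ z ∈ iv k q.2.2, F (x, y, z) ^ 2 ≤ 2 ^ k * L) :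
    ∑ y ∈ cube3 k q, |F y * atm u y| ≤ 8 ^ k * √L *
      (nN (cube3 k q) (e12 u.1) * nN (cube3 k q) (e23 u.2.2) * n2 (cube3 k q) (e13 u.2.1)) := by
  rw [S3_eq]
  set Q := cube3 k q with hQ
  have hR : 0 ≤ 8 ^ k * √L * (nN Q (e12 u.1) * nN Q (e23 u.2.2) * n2 Q (e13 u.2.1)) :=
    mul_nonneg (by positivity) (mul_nonneg (mul_nonneg (nN_nonneg _ _) (nN_nonneg _ _))
      (n2_nonneg _ _))
  refine le_of_pow_le_pow_left₀ (n := 8) (by norm_num) hR ?_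
  have a1 := avg_sq_nonneg Q (e12 u.1)
  have a2 := avg_sq_nonneg Q (e13 u.2.1)
  have a3 := avg_sq_nonneg Q (e23 u.2.2)
  have b1 := avg_four_nonneg Q (e12 u.1)
  have b3 := avg_four_nonneg Q (e23 u.2.2)
  refine (pw8 (by positivity) (core12' u h1 h2) (core23' u h2 h3)).trans (le_of_eq ?_)
  have e1 : (√L) ^ 8 = L ^ 4 := by
    rw [show (√L) ^ 8 = ((√L) ^ 2) ^ 4 by ring, Real.sq_sqrt hL]
  rw [e8, nN_eight, nN_eight, n2_eight, e1, ← p24]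
  ring

/-- **First level**, `a13`, `a23` in the geometric mean norm, `a12` in `L²`. -/
theorem first_c (u : Tri) (hL : 0 ≤ L)
    (h1 : ∀ y ∈ iv k q.2.1, ∀ z ∈ iv k q.2.2, ∑ x ∈ iv k q.1, F (x, y, z) ^ 2 ≤ 2 ^ k * L)
    (h2 : ∀ x ∈ iv k q.1, ∀ z ∈ iv k q.2.2, ∑ y ∈ iv k q.2.1, F (x, y, z) ^ 2 ≤ 2 ^ k * L)
    (h3 : ∀ x ∈ iv k q.1, ∀ y ∈ iv k q.2.1, ∑ z ∈ iv k q.2.2, F (x, y, z) ^ 2 ≤ 2 ^ k * L) :
    ∑ y ∈ cube3 k q, |F y * atm u y| ≤ 8 ^ k * √L *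
      (nN (cube3 k q) (e13 u.2.1) * nN (cube3 k q) (e23 u.2.2) * n2 (cube3 k q) (e12 u.1)) := by
  rw [S3_eq]
  set Q := cube3 k q with hQ
  have hR : 0 ≤ 8 ^ k * √L * (nN Q (e13 u.2.1) * nN Q (e23 u.2.2) * n2 Q (e12 u.1)) :=
    mul_nonneg (by positivity) (mul_nonneg (mul_nonneg (nN_nonneg _ _) (nN_nonneg _ _))
      (n2_nonneg _ _))
  refine le_of_pow_le_pow_left₀ (n := 8) (by norm_num) hR ?_
  have a1 := avg_sq_nonneg Q (e12 u.1)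
  have a2 := avg_sq_nonneg Q (e13 u.2.1)
  have a3 := avg_sq_nonneg Q (e23 u.2.2)
  have b2 := avg_four_nonneg Q (e13 u.2.1)
  have b3 := avg_four_nonneg Q (e23 u.2.2)
  refine (pw8 (by positivity) (core13' u h1 h3) (core23' u h2 h3)).trans (le_of_eq ?_)
  have e1 : (√L) ^ 8 = L ^ 4 := by
    rw [show (√L) ^ 8 = ((√L) ^ 2) ^ 4 by ring, Real.sq_sqrt hL]
  rw [e8, nN_eight, nN_eight, n2_eight, e1, ← p24]
  ring

/-- **First level**: a function with line averages of its square at most `L` is `√L / 3`-uniform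
for the pair weight. -/
theorem first_pw (u : Tri) (hL : 0 ≤ L)
    (h1 : ∀ y ∈ iv k q.2.1, ∀ z ∈ iv k q.2.2, ∑ x ∈ iv k q.1, F (x, y, z) ^ 2 ≤ 2 ^ k * L)
    (h2 : ∀ x ∈ iv k q.1, ∀ z ∈ iv k q.2.2, ∑ y ∈ iv k q.2.1, F (x, y, z) ^ 2 ≤ 2 ^ k * L)
    (h3 : ∀ x ∈ iv k q.1, ∀ y ∈ iv k q.2.1, ∑ z ∈ iv k q.2.2, F (x, y, z) ^ 2 ≤ 2 ^ k * L) :
    3 * ∑ y ∈ cube3 k q, |F y * atm u y| ≤ wP (√L) (cube3 k q) u := by
  have e1 := first_a u hL h1 h2 h3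
  have e2 := first_b u hL h1 h2 h3
  have e3 := first_c u hL h1 h2 h3
  have e4 := add_le_add (add_le_add e1 e2) e3
  unfold wP pw3
  rw [card_cube3']
  refine (le_of_eq (by ring)).trans (e4.trans (le_of_eq (by ring)))

end

end

end Vale.Agent.P141.H628
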